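import Mathlib

set_option linter.all false

/-! The Lucas sequences of `(1 + √-7) / 2`. -/

namespace Vale.Agent.P027.T2

/-- `(π ^ n - π' ^ n) / (π - π')` for `π = (1 + √-7) / 2` -/
def U : ℕ → ℤ
  | 0 => 0
  | 1 => 1
  | n + 2 => U (n + 1) - 2 * U n

/-- `π ^ n + π' ^ n` for `π = (1 + √-7) / 2` -/
def V : ℕ → ℤ
  | 0 => 2
  | 1 => 1
  | n + 2 => V (n + 1) - 2 * V n

theorem U_zero : U 0 = 0 := rfl
theorem U_one : U 1 = 1 := rfl
theorem U_rec (n : ℕ) : U (n + 2) = U (n + 1) - 2 * U n := rfl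
theorem V_zero : V 0 = 2 := rfl
theorem V_one : V 1 = 1 := rfl
theorem V_rec (n : ℕ) : V (n + 2) = V (n + 1) - 2 * V n := rfl

theorem UV_step (n : ℕ) : 2 * U (n + 1) = U n + V n ∧ 2 * V (n + 1) = V n - 7 * U n := by
  induction n with
  | zero => constructor <;> norm_num [U, V]
  | succ n ih =>
    obtain ⟨h1, h2⟩ := ih
    rw [U_rec, V_rec]
    constructor <;> linarith

theorem U_step (n : ℕ) : 2 * U (n + 1) = U n + V n := (UV_step n).1
theorem V_step (n : ℕ) : 2 * V (n + 1) = V n - 7 * U n := (UV_step n).2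

theorem UV_add (m n : ℕ) : 2 * U (m + n) = U m * V n + V m * U n ∧
    2 * V (m + n) = V m * V n - 7 * (U m * U n) := by
  induction n with
  | zero => constructor <;> simp [U, V] <;> ring
  | succ n ih =>
    obtain ⟨h1, h2⟩ := ih
    have a := U_step (m + n)
    have b := V_step (m + n)
    have c := U_step n
    have d := V_step n
    rw [← add_assoc]
    constructor
    · have : 2 * (2 * U (m + n + 1)) = 2 * (U m * V (n + 1) + V m * U (n + 1)) := by
        linear_combination 2 * a + h1 + h2 - U m * d - V m * c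
      linarith
    · have : 2 * (2 * V (m + n + 1)) = 2 * (V m * V (n + 1) - 7 * (U m * U (n + 1))) := by
        linear_combination 2 * b + h2 - 7 * h1 - V m * d + 7 * U m * c
      linarith

theorem U_add (m n : ℕ) : 2 * U (m + n) = U m * V n + V m * U n := (UV_add m n).1
theorem V_add (m n : ℕ) : 2 * V (m + n) = V m * V n - 7 * (U m * U n) := (UV_add m n).2

theorem UV_norm (n : ℕ) : V n ^ 2 + 7 * U n ^ 2 = 4 * 2 ^ n := by
  induction n with
  | zero => norm_num [U, V]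
  | succ n ih =>
    have c := U_step n
    have d := V_step n
    have : 4 * (V (n + 1) ^ 2 + 7 * U (n + 1) ^ 2) = 4 * (4 * 2 ^ (n + 1)) := by
      have e : 4 * (V (n + 1) ^ 2 + 7 * U (n + 1) ^ 2) =
        (2 * V (n + 1)) ^ 2 + 7 * (2 * U (n + 1)) ^ 2 := by ring
      rw [e, c, d, pow_succ]
      linear_combination 8 * ih
    linarith

theorem U_two_mul (n : ℕ) : U (2 * n) = U n * V n := by
  have := U_add n n
  rw [← two_mul] at this
  linarith

theorem V_two_mul (n : ℕ) : V (2 * n) = V n ^ 2 - 2 * 2 ^ n := by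
  have h := V_add n n
  rw [← two_mul] at h
  have := UV_norm n
  linarith

theorem UV_odd (n : ℕ) : Odd (U (n + 1)) ∧ Odd (V (n + 1)) := by
  induction n with
  | zero => simp [U, V]
  | succ n ih =>
    obtain ⟨⟨a, ha⟩, b, hb⟩ := ih
    rw [U_rec, V_rec]
    exact ⟨⟨a - U n, by rw [ha]; ring⟩, ⟨b - V n, by rw [hb]; ring⟩⟩

theorem U_odd {n : ℕ} (hn : 1 ≤ n) : Odd (U n) := by
  obtain ⟨m, rfl⟩ := Nat.exists_eq_add_of_le' hn
  exact (UV_odd m).1

theorem V_odd {n : ℕ} (hn : 1 ≤ n) : Odd (V n) := by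
  obtain ⟨m, rfl⟩ := Nat.exists_eq_add_of_le' hn
  exact (UV_odd m).2

theorem U_ne_zero {n : ℕ} (hn : 1 ≤ n) : U n ≠ 0 := by
  obtain ⟨k, hk⟩ := U_odd hn
  omega

theorem V_ne_zero {n : ℕ} (hn : 1 ≤ n) : V n ≠ 0 := by
  obtain ⟨k, hk⟩ := V_odd hn
  omega

end Vale.Agent.P027.T2
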