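import Vale.Agent.P027.Bdl.B1
import Vale.Agent.P027.R2.H250.LucasDef

set_option linter.all false

/-! The rational points of `x^2 + 7 y^2 = 1` whose denominators have no prime which splits in the
field of `√-7`, other than two, form a cyclic group (up to sign). -/

namespace Vale.Agent.P027.T2

open Vale.Agent.P027

/-- coordinates of the powers of `(-3 + √-7) / 4` -/
def ax (n : ℕ) : ℚ := V (2 * n) / 2 ^ (n + 1)
def ay (n : ℕ) : ℚ := U (2 * n) / 2 ^ (n + 1)

theorem ax_ay_norm (n : ℕ) : ax n ^ 2 + 7 * ay n ^ 2 = 1 := by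
  have h : (V (2 * n) : ℚ) ^ 2 + 7 * (U (2 * n) : ℚ) ^ 2 = 4 * 2 ^ (2 * n) := by
    exact_mod_cast UV_norm (2 * n)
  unfold ax ay
  have h2 : (2 : ℚ) ^ (n + 1) ≠ 0 := by positivity
  rw [div_pow, div_pow, mul_div_assoc', ← add_div, div_eq_one_iff_eq (pow_ne_zero _ h2), h]
  ring

theorem ax_add (m n : ℕ) : ax (m + n) = ax m * ax n - 7 * (ay m * ay n) := by
  have h : 2 * (V (2 * (m + n)) : ℚ) = V (2 * m) * V (2 * n) - 7 * (U (2 * m) * U (2 * n)) := by
    have := V_add (2 * m) (2 * n)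
    rw [← mul_add] at this
    exact_mod_cast this
  unfold ax ay
  have e : (2 : ℚ) ^ (m + n + 1) = 2 ^ (m + 1) * 2 ^ (n + 1) / 2 := by
    rw [eq_div_iff (by norm_num)]; ring
  rw [e]
  field_simp
  linarith only [h]

theorem ay_add (m n : ℕ) : ay (m + n) = ax m * ay n + ay m * ax n := by
  have h : 2 * (U (2 * (m + n)) : ℚ) = U (2 * m) * V (2 * n) + V (2 * m) * U (2 * n) := by
    have := U_add (2 * m) (2 * n)
    rw [← mul_add] at this
    exact_mod_cast this
  unfold ax ay
  have e : (2 : ℚ) ^ (m + n + 1) = 2 ^ (m + 1) * 2 ^ (n + 1) / 2 := by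
    rw [eq_div_iff (by norm_num)]; ring
  rw [e]
  field_simp
  linarith only [h]

theorem ax_zero : ax 0 = 1 := by simp [ax, V_zero]
theorem ay_zero : ay 0 = 0 := by simp [ay, U_zero]

lemma val_odd {z : ℤ} (h : Odd z) : padicValRat 2 (z : ℚ) = 0 := by
  rw [padicValRat.of_int]
  have : padicValInt 2 z = 0 := by
    rw [padicValInt.eq_zero_iff]
    refine Or.inr (Or.inr ?_)
    obtain ⟨k, hk⟩ := h
    push_cast
    omega
  rw [this]; rfl

lemma val_div_pow {z : ℤ} (h : Odd z) (k : ℕ) : padicValRat 2 ((z : ℚ) / 2 ^ k) = -k := by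
  have hz : (z : ℚ) ≠ 0 := by
    have : z ≠ 0 := by rintro rfl; simp at h
    exact_mod_cast this
  have h2 : padicValRat 2 (2 : ℚ) = 1 := by
    have := padicValRat.self (p := 2) (by norm_num)
    exact_mod_cast this
  rw [padicValRat.div hz (by positivity), val_odd h, padicValRat.pow, h2]
  ring

theorem val_ax {n : ℕ} (hn : 1 ≤ n) : padicValRat 2 (ax n) = -((n : ℤ) + 1) := by
  unfold ax
  rw [val_div_pow (V_odd (by omega))]
  push_cast; ring

theorem val_ay {n : ℕ} (hn : 1 ≤ n) : padicValRat 2 (ay n) = -((n : ℤ) + 1) := by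
  unfold ay
  rw [val_div_pow (U_odd (by omega))]
  push_cast; ring

lemma int_sq_one {a : ℤ} (h : a ^ 2 = 1) : a = 1 ∨ a = -1 := by
  have h1 : (a - 1) * (a + 1) = 0 := by linear_combination h
  rcases mul_eq_zero.1 h1 with h | h
  · left; omega
  · right; omega

/-- descent -/
theorem descent (n : ℕ) : ∀ A B : ℤ, Odd A → Odd B → A ^ 2 + 7 * B ^ 2 = 2 ^ (n + 3) →
    (A = V (n + 1) ∨ A = -V (n + 1)) ∧ (B = U (n + 1) ∨ B = -U (n + 1)) := by
  induction n with
  | zero =>
    intro A B hA hB h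
    rw [V_one, U_one]
    have hB2 : B ^ 2 = 1 := by
      have h1 : 0 < B ^ 2 := by
        have : B ≠ 0 := by rintro rfl; simp at hB
        positivity
      have h2 := sq_nonneg A
      norm_num at h
      nlinarith
    have hA2 : A ^ 2 = 1 := by norm_num at h; linarith
    exact ⟨int_sq_one hA2, int_sq_one hB2⟩
  | succ n ih =>
    have key : ∀ A B : ℤ, Odd A → Odd B → A ^ 2 + 7 * B ^ 2 = 2 ^ (n + 1 + 3) → (4 : ℤ) ∣ A - B →
        (A = V (n + 2) ∨ A = -V (n + 2)) ∧ (B = U (n + 2) ∨ B = -U (n + 2)) := by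
      intro A B hA hB h h4
      obtain ⟨c, hc⟩ := h4
      -- new pair
      obtain ⟨A', hA'⟩ : ∃ A', A' = 2 * B + c := ⟨_, rfl⟩
      obtain ⟨B', hB'⟩ : ∃ B', B' = -c := ⟨_, rfl⟩
      have e1 : 2 * A = A' - 7 * B' := by rw [hA', hB']; linarith
      have e2 : 2 * B = A' + B' := by rw [hA', hB']; ring
      have h' : A' ^ 2 + 7 * B' ^ 2 = 2 ^ (n + 3) := by
        have : 2 * (A' ^ 2 + 7 * B' ^ 2) = 2 * 2 ^ (n + 3) := by
          have e3 : (2 * A) ^ 2 + 7 * (2 * B) ^ 2 = 4 * 2 ^ (n + 1 + 3) := by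
            rw [← h]; ring
          rw [e1, e2] at e3
          have e4 : (2 : ℤ) ^ (n + 1 + 3) = 2 * 2 ^ (n + 3) := by ring
          rw [e4] at e3
          linarith
        linarith
      have hodd : Odd B' := by
        by_contra hcon
        rw [Int.not_odd_iff_even] at hcon
        obtain ⟨b, hb⟩ := hcon
        obtain ⟨a, ha⟩ : ∃ a, A' = 2 * a := ⟨B - b, by linarith⟩
        have e3 : A = a - 7 * b := by linarith
        have e4 : a ^ 2 + 7 * b ^ 2 = 2 ^ (n + 1) := by
          have : 4 * (a ^ 2 + 7 * b ^ 2) = 4 * 2 ^ (n + 1) := by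
            rw [ha, hb] at h'
            have e5 : (2 : ℤ) ^ (n + 3) = 4 * 2 ^ (n + 1) := by ring
            rw [e5] at h'
            linarith
          linarith
        obtain ⟨k, hk⟩ := hA
        have e5 : (2 : ℤ) ^ (n + 1) = 2 * 2 ^ n := by ring
        have e6 : a ^ 2 + 7 * b ^ 2 = 2 * (28 * b ^ 2 + 14 * b * k + 7 * b + 2 * k ^ 2 + 2 * k) + 1 := by
          have : a = 2 * k + 1 + 7 * b := by linarith
          rw [this]; ring
        omega
      have hodd' : Odd A' := by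
        have : A' = 2 * (B - B') + B' := by linarith
        rw [this]
        exact (even_two_mul _).add_odd hodd
      obtain ⟨hA2, hB2⟩ := ih A' B' hodd' hodd h'
      have sU := U_step (n + 1)
      have sV := V_step (n + 1)
      obtain ⟨u, hu⟩ := (UV_odd n).1
      obtain ⟨v, hv⟩ := (UV_odd n).2
      obtain ⟨u', hu'⟩ := (UV_odd (n + 1)).1
      obtain ⟨b, hb⟩ := hB
      rw [show n + 2 = n + 1 + 1 from rfl]
      rcases hA2 with hA2 | hA2 <;> rcases hB2 with hB2 | hB2
      · exact ⟨Or.inl (by linarith), Or.inl (by linarith)⟩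
      · exfalso; omega
      · exfalso; omega
      · exact ⟨Or.inr (by linarith), Or.inr (by linarith)⟩
    intro A B hA hB h
    have h4 : (4 : ℤ) ∣ A - B ∨ (4 : ℤ) ∣ A - (-B) := by
      obtain ⟨a, ha⟩ := hA
      obtain ⟨b, hb⟩ := hB
      omega
    rcases h4 with h4 | h4
    · exact key A B hA hB h h4
    · obtain ⟨h1, h2⟩ := key A (-B) hA hB.neg (by rw [neg_sq]; exact h) h4
      refine ⟨h1, ?_⟩
      rcases h2 with h2 | h2
      · exact Or.inr (by linarith)
      · exact Or.inl (by linarith)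

/-- minus seven is a nonresidue -/
theorem NR_neg_seven {p : ℕ} (hp : p.Prime) (hp2 : p ≠ 2) (h7 : p % 7 = 3 ∨ p % 7 = 5 ∨ p % 7 = 6) :
    haveI := Fact.mk hp
    NR p (-7) := by
  haveI := Fact.mk hp
  have hodd := hp.odd_of_ne_two hp2
  have h1 : jacobiSym (-7) p = jacobiSym p 7 := by
    rw [show (-7 : ℤ) = -((7 : ℕ) : ℤ) by norm_num, jacobiSym.neg _ hodd]
    have h4 : p % 4 = 1 ∨ p % 4 = 3 := by
      rw [Nat.odd_iff] at hodd; omega
    rcases h4 with h4 | h4
    · rw [ZMod.χ₄_nat_one_mod_four h4, one_mul]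
      exact jacobiSym.quadratic_reciprocity_one_mod_four' (by decide) h4
    · rw [chi4_three h4, jacobiSym.quadratic_reciprocity_three_mod_four (by norm_num) h4]
      ring
  have h2 : jacobiSym p 7 = -1 := by
    have e : ∀ r : ℤ, (p : ℤ) % 7 = r → jacobiSym p 7 = jacobiSym r 7 := by
      intro r hr
      apply jacobiSym.mod_left'
      push_cast
      omega
    rcases h7 with h | h | h
    · rw [e 3 (by omega)]; norm_num
    · rw [e 5 (by omega)]; norm_num
    · rw [e 6 (by omega)]; norm_num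
  have h3 := ZMod.nonsquare_of_jacobiSym_eq_neg_one (h1.trans h2)
  have := NR_of_int h3
  exact_mod_cast this

theorem norm_le_one_of {p : ℕ} [hp : Fact p.Prime] (hp2 : p ≠ 2)
    (h7 : p = 7 ∨ p % 7 = 3 ∨ p % 7 = 5 ∨ p % 7 = 6) {x y : ℚ} (h : x ^ 2 + 7 * y ^ 2 = 1) :
    padicNorm p x ≤ 1 ∧ padicNorm p y ≤ 1 := by
  have sq1 : ∀ t : ℚ, 0 ≤ t → t ^ 2 ≤ 1 → t ≤ 1 := by
    intro t h0 h1
    by_contra hcon
    push Not at hcon
    nlinarith
  rcases h7 with rfl | h7
  · have hn7 : padicNorm 7 (7 : ℚ) = 7⁻¹ := by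
      have := padicNorm.padicNorm_p_of_prime (p := 7)
      exact_mod_cast this
    have hy : padicNorm 7 (7 * y ^ 2) = 7⁻¹ * padicNorm 7 y ^ 2 := by
      rw [padicNorm.mul, hn7, pn_sq]
    -- the two norms are never equal unless both vanish
    rcases eq_or_ne x 0 with rfl | hx0
    · have h1 : padicNorm 7 (7 * y ^ 2) = 1 := by
        have : 7 * y ^ 2 = 1 := by linarith
        rw [this, padicNorm.one]
      rw [hy] at h1
      refine ⟨by simp, ?_⟩
      -- impossible by parity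
      exfalso
      have hy0 : y ≠ 0 := by rintro rfl; norm_num at h
      have h2 : padicNorm 7 (y ^ 2) = padicNorm 7 (7⁻¹ : ℚ) := by
        rw [pn_sq, ← one_div, padicNorm.div, padicNorm.one, hn7]
        field_simp at h1 ⊢
        linarith
      rw [pn_eq_iff (pow_ne_zero _ hy0) (by norm_num), padicValRat.pow, ← one_div,
        padicValRat.div one_ne_zero (by norm_num), padicValRat.one] at h2
      have h3 : padicValRat 7 (7 : ℚ) = 1 := by
        have := padicValRat.self (p := 7) (by norm_num)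
        exact_mod_cast this
      rw [h3] at h2
      push_cast at h2
      omega
    rcases eq_or_ne y 0 with rfl | hy0
    · refine ⟨?_, by simp⟩
      have h1 : padicNorm 7 x ^ 2 = 1 := by
        rw [← pn_sq]
        have : x ^ 2 = 1 := by linarith
        rw [this, padicNorm.one]
      exact sq1 _ (padicNorm.nonneg _) h1.le
    · have hne : padicNorm 7 (x ^ 2) ≠ padicNorm 7 (7 * y ^ 2) := by
        intro heq
        rw [pn_eq_iff (pow_ne_zero _ hx0) (mul_ne_zero (by norm_num) (pow_ne_zero _ hy0)),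
          padicValRat.pow, padicValRat.mul (by norm_num) (pow_ne_zero _ hy0),
          padicValRat.pow] at heq
        have h3 : padicValRat 7 (7 : ℚ) = 1 := by
          have := padicValRat.self (p := 7) (by norm_num)
          exact_mod_cast this
        rw [h3] at heq
        push_cast at heq
        omega
      have hmax : max (padicNorm 7 (x ^ 2)) (padicNorm 7 (7 * y ^ 2)) = 1 := by
        rw [← padicNorm.add_eq_max_of_ne hne, h, padicNorm.one]
      have h1 : padicNorm 7 (x ^ 2) ≤ 1 := (le_max_left _ _).trans hmax.le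
      have h2 : padicNorm 7 (7 * y ^ 2) ≤ 1 := (le_max_right _ _).trans hmax.le
      refine ⟨sq1 _ (padicNorm.nonneg _) (by rw [← pn_sq]; exact h1), ?_⟩
      rw [hy] at h2
      -- |y|^2 <= 7, and |y| is a power of seven
      rw [pn_le_one_iff]
      by_contra hcon
      push Not at hcon
      have h3 : ¬ padicNorm 7 (7 * y ^ 2) ≤ 1 := by
        rw [pn_le_one_iff, padicValRat.mul (by norm_num) (pow_ne_zero _ hy0), padicValRat.pow]
        have h4 : padicValRat 7 (7 : ℚ) = 1 := by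
          have := padicValRat.self (p := 7) (by norm_num)
          exact_mod_cast this
        rw [h4]
        push_cast
        omega
      exact h3 ((le_max_right _ _).trans hmax.le)
  · have hNR := NR_neg_seven hp.1 hp2 h7
    have h1 := hNR.norm_form x y
    have e : x ^ 2 - -7 * y ^ 2 = 1 := by linarith
    rw [e, padicNorm.one] at h1
    exact ⟨sq1 _ (padicNorm.nonneg _) ((le_max_left _ _).trans h1.symm.le),
      sq1 _ (padicNorm.nonneg _) ((le_max_right _ _).trans h1.symm.le)⟩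

lemma not_dvd_den {p : ℕ} [hp : Fact p.Prime] {z : ℚ} (hz : padicNorm p z ≤ 1) : ¬ p ∣ z.den := by
  intro hd
  have h4 : ¬ (p : ℤ) ∣ z.num := by
    intro hd'
    have h5 : p ∣ Nat.gcd z.num.natAbs z.den := Nat.dvd_gcd (Int.natCast_dvd.1 hd') hd
    rw [z.reduced] at h5
    exact hp.1.one_lt.ne' (Nat.dvd_one.1 h5)
  have h6 : padicNorm p z = padicNorm p z.num / padicNorm p z.den := by
    rw [← padicNorm.div]
    congr 1
    exact (Rat.num_div_den z).symm
  have h7 : padicNorm p (z.num : ℚ) = 1 := (padicNorm.int_eq_one_iff _).2 h4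
  have h8 : padicNorm p (z.den : ℚ) < 1 := (padicNorm.nat_lt_one_iff _).2 hd
  have h9 : 0 < padicNorm p (z.den : ℚ) := pn_pos (by exact_mod_cast z.den_ne_zero)
  rw [h6, h7, div_le_one h9] at hz
  linarith only [hz, h8]

lemma den_pow {z : ℚ} (h : ∀ p : ℕ, p.Prime → p ∣ z.den → p = 2) : ∃ k : ℕ, z.den = 2 ^ k :=
  ⟨_, Nat.eq_prime_pow_of_unique_prime_dvd z.den_ne_zero (fun {d} hd hdvd => h d hd hdvd)⟩

/-- primes allowed in denominators: two, seven and the primes inert in the field of `√-7` -/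
def Allowed (p : ℕ) : Prop := p = 2 ∨ p = 7 ∨ p % 7 = 3 ∨ p % 7 = 5 ∨ p % 7 = 6

theorem norm_one {x y : ℚ} (h : x ^ 2 + 7 * y ^ 2 = 1)
    (hx : ∀ p : ℕ, p.Prime → p ∣ x.den → Allowed p)
    (hy : ∀ p : ℕ, p.Prime → p ∣ y.den → Allowed p) :
    ∃ n : ℕ, (x = ax n ∨ x = -ax n) ∧ (y = ay n ∨ y = -ay n) := by
  have hx2 : ∀ p : ℕ, p.Prime → p ∣ x.den → p = 2 := by
    intro p hp hd
    by_contra hcon
    have := Fact.mk hp
    exact not_dvd_den (norm_le_one_of hcon ((hx p hp hd).resolve_left hcon) h).1 hd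
  have hy2 : ∀ p : ℕ, p.Prime → p ∣ y.den → p = 2 := by
    intro p hp hd
    by_contra hcon
    have := Fact.mk hp
    exact not_dvd_den (norm_le_one_of hcon ((hy p hp hd).resolve_left hcon) h).2 hd
  obtain ⟨a, ha⟩ := den_pow hx2
  obtain ⟨b, hb⟩ := den_pow hy2
  -- integers
  have hxi : ∀ k, a ≤ k → ∃ A : ℤ, x = A / 2 ^ k := by
    intro k hk
    refine ⟨x.num * 2 ^ (k - a), ?_⟩
    have h1 := Rat.num_div_den x
    rw [ha] at h1
    conv_lhs => rw [← h1]
    rw [div_eq_div_iff (by positivity) (by positivity)]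
    push_cast
    rw [mul_assoc, ← pow_add, Nat.sub_add_cancel hk]
  have hyi : ∀ k, b ≤ k → ∃ B : ℤ, y = B / 2 ^ k := by
    intro k hk
    refine ⟨y.num * 2 ^ (k - b), ?_⟩
    have h1 := Rat.num_div_den y
    rw [hb] at h1
    conv_lhs => rw [← h1]
    rw [div_eq_div_iff (by positivity) (by positivity)]
    push_cast
    rw [mul_assoc, ← pow_add, Nat.sub_add_cancel hk]
  -- the least exponent
  classical
  have hex : ∃ k : ℕ, (∃ A : ℤ, x = A / 2 ^ k) ∧ ∃ B : ℤ, y = B / 2 ^ k :=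
    ⟨max a b, hxi _ (le_max_left _ _), hyi _ (le_max_right _ _)⟩
  obtain ⟨⟨A, hA⟩, B, hB⟩ := Nat.find_spec hex
  obtain ⟨k, hk⟩ : ∃ k, k = Nat.find hex := ⟨_, rfl⟩
  have hmin : ∀ j < k, ¬ ((∃ A : ℤ, x = A / 2 ^ j) ∧ ∃ B : ℤ, y = B / 2 ^ j) := by
    intro j hj
    rw [hk] at hj
    exact Nat.find_min hex hj
  rw [← hk] at hA hB
  have hAB : A ^ 2 + 7 * B ^ 2 = 4 ^ k := by
    have h1 : ((A : ℚ) / 2 ^ k) ^ 2 + 7 * ((B : ℚ) / 2 ^ k) ^ 2 = 1 := by rw [← hA, ← hB]; exact h
    have h2 : (2 : ℚ) ^ k ≠ 0 := by positivity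
    rw [div_pow, div_pow, mul_div_assoc', ← add_div, div_eq_one_iff_eq (pow_ne_zero _ h2)] at h1
    have h3 : ((2 : ℚ) ^ k) ^ 2 = 4 ^ k := by
      rw [← pow_mul, mul_comm, pow_mul]; norm_num
    rw [h3] at h1
    exact_mod_cast h1
  rcases Nat.eq_zero_or_pos k with hk0 | hk1
  · -- integers
    refine ⟨0, ?_⟩
    rw [ax_zero, ay_zero]
    rw [hk0] at hA hB hAB
    rw [pow_zero, div_one] at hA hB
    have hB0 : B = 0 := by
      by_contra hcon
      have : 0 < B ^ 2 := by positivity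
      have := sq_nonneg A
      norm_num at hAB
      linarith
    have hA1 : A ^ 2 = 1 := by rw [hB0] at hAB; norm_num at hAB ⊢; exact hAB
    have : A = 1 ∨ A = -1 := int_sq_one hA1
    refine ⟨?_, Or.inl (by rw [hB, hB0]; norm_num)⟩
    rcases this with h | h
    · left; rw [hA, h]; norm_num
    · right; rw [hA, h]; norm_num
  · obtain ⟨j, rfl⟩ : ∃ j, k = j + 1 := ⟨k - 1, by omega⟩
    have h4 : (4 : ℤ) ^ (j + 1) = 4 * 4 ^ j := by ring
    have hpar : A % 2 = B % 2 := by
      have h5 : (A ^ 2 + 7 * B ^ 2) % 4 = 0 := by rw [hAB, h4]; omega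
      rcases Int.emod_two_eq_zero_or_one A with hA2 | hA2 <;>
        rcases Int.emod_two_eq_zero_or_one B with hB2 | hB2
      · omega
      · exfalso
        obtain ⟨u, hu⟩ : ∃ u, A = 2 * u := ⟨A / 2, by omega⟩
        obtain ⟨w, hw⟩ : ∃ w, B = 2 * w + 1 := ⟨B / 2, by omega⟩
        have : A ^ 2 + 7 * B ^ 2 = 4 * (u ^ 2 + 7 * w ^ 2 + 7 * w + 1) + 3 := by rw [hu, hw]; ring
        omega
      · exfalso
        obtain ⟨u, hu⟩ : ∃ u, A = 2 * u + 1 := ⟨A / 2, by omega⟩
        obtain ⟨w, hw⟩ : ∃ w, B = 2 * w := ⟨B / 2, by omega⟩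
        have : A ^ 2 + 7 * B ^ 2 = 4 * (u ^ 2 + u + 7 * w ^ 2) + 1 := by rw [hu, hw]; ring
        omega
      · omega
    have hAodd : A % 2 = 1 := by
      by_contra hcon
      apply hmin j (Nat.lt_succ_self j)
      obtain ⟨u, hu⟩ : ∃ u, A = 2 * u := ⟨A / 2, by omega⟩
      obtain ⟨w, hw⟩ : ∃ w, B = 2 * w := ⟨B / 2, by omega⟩
      refine ⟨⟨u, ?_⟩, w, ?_⟩
      · rw [hA, hu, div_eq_div_iff (by positivity) (by positivity)]
        push_cast; ring
      · rw [hB, hw, div_eq_div_iff (by positivity) (by positivity)]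
        push_cast; ring
    have hBodd : B % 2 = 1 := by omega
    -- the exponent is at least two
    have hj : 1 ≤ j := by
      by_contra hcon
      have hj0 : j = 0 := by omega
      subst hj0
      have h1 : 0 < B ^ 2 := by
        have : B ≠ 0 := by omega
        positivity
      have h2 : 0 < A ^ 2 := by
        have : A ≠ 0 := by omega
        positivity
      norm_num at hAB
      omega
    obtain ⟨i, rfl⟩ : ∃ i, j = i + 1 := ⟨j - 1, by omega⟩
    have h5 := descent (2 * i + 1) A B (Int.odd_iff.2 hAodd) (Int.odd_iff.2 hBodd) (by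
      rw [hAB, show (4 : ℤ) = 2 ^ 2 by norm_num, ← pow_mul]
      congr 1)
    refine ⟨i + 1, ?_⟩
    have e : 2 * (i + 1) = 2 * i + 1 + 1 := by ring
    unfold ax ay
    rw [e]
    obtain ⟨h6, h7⟩ := h5
    constructor
    · rcases h6 with h6 | h6
      · left; rw [hA, h6]
      · right; rw [hA, h6]; push_cast; ring
    · rcases h7 with h7 | h7
      · left; rw [hB, h7]
      · right; rw [hB, h7]; push_cast; ring

end Vale.Agent.P027.T2
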