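import Vale.Agent.P027.R2.H250.Cap6

set_option linter.all false

/-! Completeness of the common prime predicate with powers of two as denominators. -/

namespace Vale.Agent.P027.T2

open Vale.Agent.P027

theorem sqrt_two_pow_aux {a : ℤ} (ha : a % 8 = 1) (c : ℕ) :
    ∃ s : ℤ, Odd s ∧ (2 : ℤ) ^ (c + 3) ∣ s ^ 2 - a := by
  induction c with
  | zero => exact ⟨1, odd_one, by norm_num; omega⟩
  | succ c ih =>
    obtain ⟨s, hs, k, hk⟩ := ih
    rcases Int.even_or_odd k with hk2 | hk2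
    · obtain ⟨j, hj⟩ := hk2
      exact ⟨s, hs, j, by rw [hk, hj]; ring⟩
    · obtain ⟨j, hj⟩ := hk2
      obtain ⟨i, hi⟩ := hs
      refine ⟨s + 2 ^ (c + 2), ?_, j + i + 1 + 2 ^ c, ?_⟩
      · rw [hi]
        refine ⟨i + 2 ^ (c + 1), by ring⟩
      · have e : (s + 2 ^ (c + 2)) ^ 2 - a = (s ^ 2 - a) + 2 ^ (c + 3) * s + 2 ^ (2 * c + 4) := by
          ring
        rw [e, hk, hj]
        have e2 : (2 : ℤ) ^ (c + 3) * s = 2 ^ (c + 3) * (2 * i + 1) := by rw [hi]
        rw [e2]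
        ring

theorem sqrt_two_pow {a : ℤ} (ha : a % 8 = 1) (c : ℕ) : ∃ s : ℤ, (2 : ℤ) ^ c ∣ s ^ 2 - a := by
  obtain ⟨s, -, hs⟩ := sqrt_two_pow_aux ha c
  exact ⟨s, (pow_dvd_pow 2 (by omega)).trans hs⟩

theorem exists_odd_part {K : ℤ} (hK : K ≠ 0) : ∃ (c : ℕ) (m : ℤ), Odd m ∧ K = 2 ^ c * m := by
  obtain ⟨c, m, hm, h⟩ := Nat.exists_eq_two_pow_mul_odd (Int.natAbs_ne_zero.2 hK)
  rcases Int.natAbs_eq K with h1 | h1
  · refine ⟨c, m, by exact_mod_cast hm, ?_⟩
    rw [h1, h]; push_cast; rfl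
  · refine ⟨c, -m, ?_, ?_⟩
    · have : Odd ((m : ℕ) : ℤ) := by exact_mod_cast hm
      exact this.neg
    · rw [h1, h]; push_cast; ring

/-- choice of the auxiliary prime -/
theorem exists_prime_crt7 {B N : ℕ} (hB : Nat.Coprime 24 B) (hB0 : B ≠ 0) (hN0 : N ≠ 0)
    (hBN : Nat.Coprime (24 * B) N) (M : ℕ) :
    ∃ p : ℕ, M < p ∧ p.Prime ∧ p % 24 = 11 ∧ (B : ℤ) ∣ 1 - p ∧ (N : ℤ) ∣ 3 - p := by
  obtain ⟨c, hc1, hc2⟩ := Nat.chineseRemainder hB 11 1
  obtain ⟨d, hd1, hd2⟩ := Nat.chineseRemainder hBN c 3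
  have hd12 : d ≡ 11 [MOD 24] := (hd1.of_mul_right B).trans hc1
  have hdB : d ≡ 1 [MOD B] := (hd1.of_mul_left 24).trans hc2
  have h3N : Nat.Coprime 3 N := by
    refine Nat.Coprime.coprime_dvd_left ?_ hBN
    exact ⟨8 * B, by ring⟩
  have hco : Nat.Coprime d (24 * B * N) := by
    refine Nat.Coprime.mul_right (Nat.Coprime.mul_right ?_ ?_) ?_
    · rw [Nat.Coprime, hd12.gcd_eq]; norm_num
    · rw [Nat.Coprime, hdB.gcd_eq]; exact Nat.gcd_one_left _
    · rw [Nat.Coprime, hd2.gcd_eq]; exact h3N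
  obtain ⟨p, hp1, hp2, hp3⟩ := Nat.forall_exists_prime_gt_and_modEq M
    (by positivity : 24 * B * N ≠ 0) hco
  refine ⟨p, hp1, hp2, ?_, ?_, ?_⟩
  · have : p ≡ 11 [MOD 24] := ((hp3.of_mul_right N).of_mul_right B).trans hd12
    exact this
  · have : p ≡ 1 [MOD B] := ((hp3.of_mul_right N).of_mul_left 24).trans hdB
    exact_mod_cast Nat.modEq_iff_dvd.1 this
  · have : p ≡ 3 [MOD N] := (hp3.of_mul_left (24 * B)).trans hd2
    exact_mod_cast Nat.modEq_iff_dvd.1 this

/-- reciprocity with an even left argument -/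
theorem jacobi_even {K m : ℤ} {c P : ℕ} (hm : Odd m) (hK : K = 2 ^ c * m) (hP : P % 8 = 1)
    (h : m ∣ 9 - P) (hco : Nat.Coprime 3 m.natAbs) : jacobiSym K P = 1 := by
  have hPodd : Odd P := by rw [Nat.odd_iff]; omega
  have h2 : jacobiSym 2 P = 1 := by
    rw [jacobiSym.at_two hPodd, ZMod.χ₈_nat_eq_if_mod_eight]
    have h1 : ¬ P % 2 = 0 := by omega
    simp [h1, hP]
  have hmodd : Odd m.natAbs := Int.natAbs_odd.2 hm
  have h3 : jacobiSym m P = jacobiSym P m.natAbs := by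
    rcases le_or_gt 0 m with h0 | h0
    · obtain ⟨N, rfl⟩ := Int.eq_ofNat_of_zero_le h0
      rw [Int.natAbs_natCast] at *
      exact jacobiSym.quadratic_reciprocity_one_mod_four' (a := N) (b := P) hmodd (by omega)
    · obtain ⟨N, hN⟩ : ∃ N : ℕ, m = -N := ⟨m.natAbs, by omega⟩
      subst hN
      rw [Int.natAbs_neg, Int.natAbs_natCast] at *
      rw [jacobiSym.neg _ hPodd, ZMod.χ₄_nat_one_mod_four (by omega), one_mul]
      exact jacobiSym.quadratic_reciprocity_one_mod_four' (a := N) (b := P) hmodd (by omega)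
  have h4 : jacobiSym P m.natAbs = 1 := by
    have e : (P : ℤ) % m.natAbs = 3 ^ 2 % m.natAbs := Int.modEq_iff_dvd.2 (by
      norm_num
      exact h)
    rw [jacobiSym.mod_left' e]
    apply jacobiSym.sq_one'
    rw [Int.gcd, Int.natAbs_natCast]
    exact hco
  rw [hK, jacobiSym.mul_left, jacobiSym.pow_left, h2, h3, h4]
  norm_num

theorem capture7_complete {b : ℤ} (hb : b.natAbs.Prime) (h12 : b % 12 = 5) (L : List (ℤ × ℕ)) :
    ∃ a : ℚ, Cap3 a b ∧ ∀ R ∈ L, Con3 a b ((R.1 : ℚ) / 2 ^ R.2) := by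
  obtain ⟨K, hK⟩ : ∃ K : ℤ × ℕ → ℤ, ∀ R, K R = 4 ^ R.2 + 12 * b * R.1 ^ 2 := ⟨_, fun _ => rfl⟩
  have h4 : ∀ t : ℕ, (4 : ℤ) ^ t % 3 = 1 := by
    intro t
    have : (4 : ℤ) ^ t ≡ 1 ^ t [ZMOD 3] := Int.ModEq.pow t (by decide)
    rw [one_pow] at this
    exact this
  have hK3 : ∀ R, K R % 3 = 1 := by
    intro R
    have h5 := h4 R.2
    have e : 12 * b * R.1 ^ 2 = 3 * (4 * b * R.1 ^ 2) := by ring
    rw [hK, e]
    omega
  have hK0 : ∀ R, K R ≠ 0 := by
    intro R h0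
    have := hK3 R
    omega
  choose c m hm hKm using fun R => exists_odd_part (hK0 R)
  obtain ⟨P, hP⟩ : ∃ P : ℕ, P = (L.map (fun R => (m R).natAbs)).prod := ⟨_, rfl⟩
  have hb3 : IsCoprime (3 * b) 2 := by
    have : b = 5 + 12 * (b / 12) := by omega
    rw [this]
    exact ⟨1, -(7 + 18 * (b / 12)), by ring⟩
  have hcoK : ∀ R, IsCoprime (3 * b) (K R) := by
    intro R
    rw [hK]
    have h5 : IsCoprime (3 * b) (4 ^ R.2) := by
      rw [show (4 : ℤ) = 2 ^ 2 by norm_num, ← pow_mul]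
      exact hb3.pow_right
    have e : (4 : ℤ) ^ R.2 + 12 * b * R.1 ^ 2 = 4 ^ R.2 + 3 * b * (4 * R.1 ^ 2) := by ring
    rw [e]
    exact h5.add_mul_left_right _
  have hcom : ∀ R, Nat.Coprime (24 * b.natAbs) (m R).natAbs := by
    intro R
    have h5 : IsCoprime (3 * b) (m R) := by
      have := hcoK R
      rw [hKm R] at this
      exact this.of_mul_right_right
    have h6 : IsCoprime (8 : ℤ) (m R) := by
      obtain ⟨k, hk⟩ := hm R
      have : IsCoprime (2 : ℤ) (m R) := ⟨-k, 1, by rw [hk]; ring⟩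
      rw [show (8 : ℤ) = 2 ^ 3 by norm_num]
      exact this.pow_left
    have h7 : IsCoprime (24 * b) (m R) := by
      have e : 24 * b = 8 * (3 * b) := by ring
      rw [e]
      exact h6.mul_left h5
    rw [Int.isCoprime_iff_gcd_eq_one, Int.gcd, Int.natAbs_mul] at h7
    exact h7
  have hcoP : Nat.Coprime (24 * b.natAbs) P := by
    rw [hP]
    refine Nat.coprime_list_prod_right_iff.2 ?_
    intro n hn
    obtain ⟨R, -, rfl⟩ := List.mem_map.1 hn
    exact hcom R
  have hP0 : P ≠ 0 := by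
    rintro rfl
    rw [Nat.coprime_zero_right] at hcoP
    omega
  have hdvdP : ∀ R ∈ L, (m R).natAbs ∣ P := by
    intro r hr
    rw [hP]
    exact List.dvd_prod (List.mem_map.2 ⟨r, hr, rfl⟩)
  have hB24 : Nat.Coprime 24 b.natAbs := by
    have h1 : IsCoprime (24 : ℤ) b := by
      have h5 : b = 5 + 12 * (b / 12) := by omega
      have h6 : IsCoprime (12 : ℤ) b := by
        rw [h5]
        exact ⟨-2 - 5 * (b / 12), 5, by ring⟩
      have h7 : IsCoprime (2 : ℤ) b := by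
        refine IsCoprime.of_mul_left_left (y := 6) ?_
        norm_num
        exact h6
      have h8 := h6.mul_left h7
      norm_num at h8
      exact h8
    rw [Int.isCoprime_iff_gcd_eq_one, Int.gcd] at h1
    exact h1
  obtain ⟨p, hpM, hp, hp24, hpB, hpP⟩ := exists_prime_crt7 hB24 hb.ne_zero hP0 hcoP
    (b.natAbs + (L.map (fun R => (K R).natAbs)).sum + 3)
  have hp0 : (0 : ℤ) < p := by exact_mod_cast hp.pos
  have hpb : b ∣ 1 - p := Int.natAbs_dvd.1 hpB
  have hpgt : ∀ x : ℤ, x ≠ 0 → x.natAbs < p → IsCoprime (p : ℤ) x := by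
    intro x hx hxp
    have : Nat.Coprime p x.natAbs := by
      rw [Nat.Prime.coprime_iff_not_dvd hp]
      intro hd
      have := Nat.le_of_dvd (Int.natAbs_pos.2 hx) hd
      omega
    rw [Int.isCoprime_iff_gcd_eq_one, Int.gcd, Int.natAbs_natCast]
    exact this
  have hpq : (p : ℚ) ≠ 0 := by exact_mod_cast hp.ne_zero
  refine ⟨3 * p, ⟨mul_ne_zero (by norm_num) hpq, ?_, ?_⟩, ?_⟩
  · -- the first norm
    have hJ : jacobiSym 3 p = 1 := by
      have h := jacobiSym.quadratic_reciprocity_three_mod_four (a := 3) (b := p) (by norm_num)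
        (by omega)
      have e : (p : ℤ) % ((3 : ℕ) : ℤ) = (2 : ℤ) % ((3 : ℕ) : ℤ) := by push_cast; omega
      rw [jacobiSym.mod_left' e] at h
      have h2 : jacobiSym 2 3 = -1 := by
        rw [jacobiSym.at_two (by decide)]
        decide
      rw [h2, neg_neg] at h
      exact_mod_cast h
    obtain ⟨t, ht⟩ := sq_of_jacobi hp hJ
    obtain ⟨x, z, hxz⟩ := gconic2 (α := 3) (β := -(p : ℤ)) (s := t) (t := 1) (by norm_num)
      (by omega) ((hpgt 3 (by norm_num) (by show 3 < p; omega)).symm.neg_right) ((neg_dvd).2 ht)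
      (by omega) (fun k hk => by
        have := prime_not_sq Nat.prime_three k
        exact this (by exact_mod_cast hk))
    refine ⟨3 * z, x, ?_⟩
    push_cast at hxz
    linear_combination (-3) * hxz
  · -- the second norm
    have hJ : jacobiSym b p = 1 := by
      rw [recip_int (by omega) (by omega)]
      have e : (p : ℤ) % b.natAbs = 1 % b.natAbs := Int.modEq_iff_dvd.2 hpB
      rw [jacobiSym.mod_left' e]
      exact jacobiSym.one_left _
    obtain ⟨t, ht⟩ := sq_of_jacobi hp hJ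
    obtain ⟨x, z, hxz⟩ := gconic1 (α := p) (β := b) (s := 1) (t := t) hp0 (by omega)
      (hpgt b (by omega) (by omega)) (by simpa using hpb) ht (fun k hk => by
        rcases le_or_gt 0 b with h0 | h0
        · have h1 := prime_not_sq hb k
          rw [Int.natAbs_of_nonneg h0] at h1
          exact h1 hk
        · have := sq_nonneg k
          omega)
    refine ⟨3 * x, 3 * z, ?_⟩
    push_cast at hxz
    linear_combination 9 * hxz
  · intro R hR
    have hKle : (K R).natAbs < p := by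
      have h5 : (K R).natAbs ≤ (L.map (fun R => (K R).natAbs)).sum :=
        List.single_le_sum (fun _ _ => Nat.zero_le _) _ (List.mem_map.2 ⟨R, hR, rfl⟩)
      omega
    have hmd : (m R) ∣ 3 - p := by
      have h1 : ((m R).natAbs : ℤ) ∣ (P : ℤ) := by exact_mod_cast hdvdP R hR
      exact Int.natAbs_dvd.1 (h1.trans hpP)
    have hco3 : IsCoprime (3 : ℤ) (K R) := by
      have := hcoK R
      exact this.of_mul_left_left
    have hJ3 : jacobiSym (K R) (3 * p) = 1 := by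
      refine jacobi_even (hm R) (hKm R) (by omega) ?_ ?_
      · obtain ⟨k, hk⟩ := hmd
        exact ⟨3 * k, by push_cast; linear_combination 3 * hk⟩
      · have := hcom R
        refine Nat.Coprime.coprime_dvd_left ?_ this
        exact ⟨8 * b.natAbs, by ring⟩
    have hJ : jacobiSym (K R) p = 1 := by
      rw [jacobiSym.mul_right' _ (by norm_num) hp.ne_zero] at hJ3
      have e : K R % ((3 : ℕ) : ℤ) = 1 % ((3 : ℕ) : ℤ) := by
        have := hK3 R
        push_cast; omega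
      rw [jacobiSym.mod_left' e, jacobiSym.one_left, one_mul] at hJ3
      exact hJ3
    obtain ⟨t, ht⟩ := sq_of_jacobi hp hJ
    have h3p : IsCoprime (3 : ℤ) (p : ℤ) := (hpgt 3 (by norm_num) (by show 3 < p; omega)).symm
    obtain ⟨r, hr⟩ := sq_crt h3p (a := K R) (s := 1) (t := t)
      (by have := hK3 R; omega) ht
    -- square root of `3 p` modulo `K R`
    obtain ⟨s, hs⟩ : ∃ s : ℤ, K R ∣ s ^ 2 - 3 * p := by
      obtain ⟨s₁, hs₁⟩ := sqrt_two_pow (a := 3 * (p : ℤ)) (by omega) (c R)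
      have h2m : IsCoprime ((2 : ℤ) ^ (c R)) (m R) := by
        obtain ⟨k, hk⟩ := hm R
        have : IsCoprime (2 : ℤ) (m R) := ⟨-k, 1, by rw [hk]; ring⟩
        exact this.pow_left
      obtain ⟨s, hs⟩ := sq_crt h2m (a := 3 * (p : ℤ)) (s := s₁) (t := 3) hs₁ (by
        obtain ⟨k, hk⟩ := hmd
        exact ⟨3 * k, by linear_combination 3 * hk⟩)
      refine ⟨s, ?_⟩
      rw [hKm R]
      exact hs
    obtain ⟨x, z, hxz⟩ := gconic2 (α := 3 * (p : ℤ)) (β := K R) (s := s) (t := r)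
      (by omega) (hK0 R) (hco3.mul_left (hpgt _ (hK0 R) hKle)) hs hr
      (fun k hk => by
        have h1 : (3 : ℤ) ∣ k := by
          have : (3 : ℤ) ∣ k ^ 2 := ⟨p, hk.symm⟩
          exact Int.prime_three.dvd_of_dvd_pow this
        obtain ⟨j, rfl⟩ := h1
        have h2 : (p : ℤ) = 3 * j ^ 2 := by linarith only [hk]
        omega)
    refine ⟨x / 2 ^ R.2, z / 2 ^ R.2, ?_⟩
    have h1 : (1 : ℚ) + 12 * b * ((R.1 : ℚ) / 2 ^ R.2) ^ 2 = ((K R : ℤ) : ℚ) / (2 ^ R.2) ^ 2 := by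
      rw [hK]
      push_cast
      have e : (4 : ℚ) ^ R.2 = (2 ^ R.2) ^ 2 := by
        rw [← pow_mul, mul_comm, pow_mul]; norm_num
      rw [e]
      field_simp
    rw [h1, hxz]
    push_cast
    field_simp

theorem CP.complete'' {b : ℤ} (hb : b.natAbs.Prime) (h12 : b % 12 = 5) (A : List ℚ)
    (hA : ∀ x ∈ A, ∃ (n : ℤ) (t : ℕ), x = b * n / 2 ^ t) : CP A := by
  have hb0 : (b : ℚ) ≠ 0 := by
    have : b ≠ 0 := by omega
    exact_mod_cast this
  have hA' : ∀ x : ℚ, ∃ R : ℤ × ℕ, x ∈ A → x = b * R.1 / 2 ^ R.2 := by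
    intro x
    by_cases hx : x ∈ A
    · obtain ⟨n, t, hn⟩ := hA x hx
      exact ⟨(n, t), fun _ => hn⟩
    · exact ⟨0, fun h => absurd h hx⟩
  choose n hn using hA'
  obtain ⟨a, hcap, hcon⟩ := capture7_complete hb h12 ((1, 0) :: A.map n)
  refine ⟨a, b, ?_, hcap, ?_, fun x hx => ?_⟩
  · obtain ⟨k, hk⟩ : ∃ k : ℤ, b = 5 + 12 * k := ⟨(b - 5) / 12, by omega⟩
    have hk' : ((b : ℚ) - 5) / 12 = k := by
      have : (b : ℚ) = 5 + 12 * k := by exact_mod_cast hk
      rw [this]; ring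
    constructor
    · rw [hk', padicValRat.of_int]
      exact_mod_cast Nat.zero_le _
    · rw [hk', padicValRat.of_int]
      exact_mod_cast Nat.zero_le _
  · have := hcon (1, 0) (by simp)
    simpa using this
  · have h1 := hcon (n x) (by simp; right; exact ⟨x, hx, rfl⟩)
    have e : x / b = ((n x).1 : ℚ) / 2 ^ (n x).2 := by
      rw [div_eq_iff hb0]
      exact (hn x hx).trans (by ring)
    rw [e]
    exact h1

end Vale.Agent.P027.T2
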