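import Vale.Agent.P027.R2.H124.Cap3
import Vale.Agent.P027.R2.H250.LucasDef

set_option linter.all false

/-! Primes for the capture which divide the members of the second Lucas sequence at powers of
two. -/

namespace Vale.Agent.P027.T2

open Vale.Agent.P027

theorem V_pow_mod (j : ℕ) : V (2 ^ (j + 3)) % 8 = 1 ∧ V (2 ^ (j + 3)) % 3 = 2 := by
  induction j with
  | zero =>
    have h2 : V 2 = -3 := by norm_num [V]
    have h4 : V 4 = 1 := by norm_num [V]
    have h8 : V 8 = -31 := by norm_num [V]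
    norm_num [h8]
  | succ j ih =>
    obtain ⟨h1, h2⟩ := ih
    have e : 2 ^ (j + 1 + 3) = 2 * 2 ^ (j + 3) := by ring
    rw [e, V_two_mul]
    obtain ⟨m, hm⟩ : ∃ m, 2 ^ (j + 3) = 2 * (m + 2) := by
      refine ⟨2 ^ (j + 2) - 2, ?_⟩
      have : 2 ≤ 2 ^ (j + 2) := by
        calc 2 = 2 ^ 1 := by norm_num
          _ ≤ 2 ^ (j + 2) := Nat.pow_le_pow_right (by norm_num) (by omega)
      have e2 : 2 ^ (j + 3) = 2 * 2 ^ (j + 2) := by ring
      omega
    have h3 : ((2 : ℤ) ^ (2 ^ (j + 3))) = 16 * 4 ^ m := by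
      rw [hm, pow_mul, pow_add]
      norm_num
      ring
    have h4 : ((4 : ℤ) ^ m) % 3 = 1 := by
      have : (4 : ℤ) ^ m ≡ 1 ^ m [ZMOD 3] := Int.ModEq.pow m (by decide)
      rw [one_pow] at this
      exact this
    rw [h3]
    constructor
    · have h5 : V (2 ^ (j + 3)) ^ 2 % 8 = 1 := by
        rw [sq, Int.mul_emod, h1]
        norm_num
      omega
    · have h5 : V (2 ^ (j + 3)) ^ 2 % 3 = 1 := by
        rw [sq, Int.mul_emod, h2]
        norm_num
      omega

/-- a prime of the form used by the capture -/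
theorem exists_prime_V {j : ℕ} (hj : 3 ≤ j) : ∃ b : ℤ, b.natAbs.Prime ∧ b % 12 = 5 ∧
    b ∣ V (2 ^ j) := by
  obtain ⟨i, rfl⟩ : ∃ i, j = i + 3 := ⟨j - 3, by omega⟩
  obtain ⟨h1, h2⟩ := V_pow_mod i
  obtain ⟨q, hq, hq12, hqd⟩ : ∃ q : ℕ, q.Prime ∧ (q % 12 = 5 ∨ q % 12 = 7) ∧
      q ∣ (V (2 ^ (i + 3))).natAbs := by
    by_contra hcon
    push Not at hcon
    have h3 := exists_odd_factor12 (V (2 ^ (i + 3))).natAbs (by omega) (by omega)
      (fun q hq h8 => by
        rw [Nat.factorization_eq_zero_of_not_dvd (hcon q hq h8)]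
        exact ⟨0, rfl⟩)
    omega
  rcases hq12 with h | h
  · exact ⟨q, by simpa using hq, by omega, Int.natCast_dvd.2 hqd⟩
  · refine ⟨-q, by simpa using hq, by omega, ?_⟩
    rw [neg_dvd]
    exact Int.natCast_dvd.2 hqd

end Vale.Agent.P027.T2
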