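import Vale.Agent.P027.Bdl.B1

set_option linter.all false

/-! The rational numbers which are integral at a given prime form a Diophantine set. -/

namespace Vale.Agent.P027.T2

open Vale.Agent.P027

/-- `a` is a norm from the field of `√D`, and `D a` a norm from the field of `√b` -/
def CapD (D b : ℕ) (a : ℚ) : Prop :=
  a ≠ 0 ∧ (∃ e f : ℚ, a = e ^ 2 - D * f ^ 2) ∧ ∃ u v : ℚ, D * a = u ^ 2 - b * v ^ 2

def ConD (D b : ℕ) (a r : ℚ) : Prop := ∃ x z : ℚ, x ^ 2 - a * z ^ 2 = 1 + 4 * D * b * r ^ 2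

/-- the Diophantine condition on `r` -/
def ID (D b : ℕ) (r : ℚ) : Prop := ∃ a : ℚ, CapD D b a ∧ ConD D b a r

section sound

variable {q : ℕ} [hq : Fact q.Prime]

/-- the quotient of nonresidue by residue -/
private lemma nr_cap {D : ℚ} (h2 : NR q D) {a b e f u v : ℚ} (hb : Odd (padicValRat q b)) (ha : a ≠ 0)
    (hef : a = e ^ 2 - D * f ^ 2) (huv : D * a = u ^ 2 - b * v ^ 2) :
    ∃ ρ c : ℚ, ρ ≠ 0 ∧ NR q c ∧ a = c * ρ ^ 2 := by
  have hb0 : b ≠ 0 := by
    rintro rfl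
    simp at hb
  obtain ⟨ρ, hρ⟩ := h2.norm_form' e f
  rw [← hef] at hρ
  have hρ0 : ρ ≠ 0 := by
    rintro rfl
    rw [padicNorm.zero] at hρ
    have := pn_pos (q := q) ha
    rw [hρ] at this
    norm_num at this
  have hρpos := pn_pos (q := q) hρ0
  set U := u / ρ with hU
  set W := v / ρ with hW
  set c := a / ρ ^ 2 with hcdef
  have hac : a = c * ρ ^ 2 := by rw [hcdef]; field_simp
  have hc1 : padicNorm q c = 1 := by
    rw [hcdef, padicNorm.div, pn_sq, hρ, div_self (by (clear * - hρpos; positivity))]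
  have hUW : D * c = U ^ 2 - b * W ^ 2 := by
    rw [hU, hW, hcdef]
    field_simp
    linear_combination huv
  have h2c : padicNorm q (D * c) = 1 := by rw [padicNorm.mul, h2.1, hc1, one_mul]
  -- the term with `b` is small
  have hsmall : padicNorm q (b * W ^ 2) < 1 := by
    by_cases hW0 : W = 0
    · rw [hW0]; simp only [ne_eq, OfNat.ofNat_ne_zero, not_false_eq_true, zero_pow, mul_zero, padicNorm.zero, zero_lt_one]
    have hbW0 : b * W ^ 2 ≠ 0 := by (clear * - hb0 hW0; positivity)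
    have hodd : Odd (padicValRat q (b * W ^ 2)) := by
      rw [padicValRat.mul hb0 (by (clear * - hW0; positivity)), padicValRat.pow]
      rw [Int.odd_iff] at hb ⊢
      push_cast
      omega
    by_contra hcon
    push Not at hcon
    rcases hcon.lt_or_eq with hlt | heq
    · have h5 : padicNorm q (U ^ 2) = padicNorm q (b * W ^ 2) := by
        have e : U ^ 2 = D * c + b * W ^ 2 := by rw [hUW]; ring
        rw [e, pn_add_right (by rw [h2c]; exact hlt)]
      have hU0 : U ≠ 0 := by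
        intro h6
        rw [h6] at h5
        simp only [ne_eq, OfNat.ofNat_ne_zero, not_false_eq_true, zero_pow, padicNorm.zero] at h5
        exact padicNorm.nonzero hbW0 h5.symm
      rw [pn_eq_iff (by (clear * - hU0; positivity)) hbW0, padicValRat.pow] at h5
      rw [← h5, Int.odd_iff] at hodd
      push_cast at hodd
      omega
    · have h6 : padicNorm q (b * W ^ 2) = padicNorm q 1 := by rw [← heq, padicNorm.one]
      rw [pn_eq_iff hbW0 one_ne_zero] at h6
      rw [h6] at hodd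
      simp at hodd
  refine ⟨ρ, c, hρ0, ⟨hc1, fun s => ?_⟩, hac⟩
  by_contra hcon
  push Not at hcon
  have hs1 : padicNorm q s = 1 := by
    have e : s ^ 2 = c - (c - s ^ 2) := by ring
    have h7 : padicNorm q (s ^ 2) = 1 := by
      rw [e, pn_sub_left (by rw [hc1]; exact hcon), hc1]
    rw [pn_sq] at h7
    exact (pow_eq_one_iff_of_nonneg (padicNorm.nonneg _) (by norm_num)).1 h7
  have hs0 : s ≠ 0 := by
    rintro rfl
    rw [padicNorm.zero] at hs1
    norm_num at hs1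
  have h8 := h2.2 (U / s)
  have e8 : D - (U / s) ^ 2 = -((D * (c - s ^ 2) + -(D * c - U ^ 2)) / s ^ 2) := by
    field_simp; ring
  have h9 : padicNorm q (D * (c - s ^ 2) + -(D * c - U ^ 2)) < 1 := by
    refine padicNorm.nonarchimedean.trans_lt (max_lt ?_ ?_)
    · rw [padicNorm.mul, h2.1, one_mul]; exact hcon
    · rw [padicNorm.neg]
      have e9 : D * c - U ^ 2 = -(b * W ^ 2) := by rw [hUW]; ring
      rw [e9, padicNorm.neg]; exact hsmall
  rw [e8, padicNorm.neg, padicNorm.div, pn_sq, hs1, one_pow, div_one] at h8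
  linarith only [h8, h9]

/-- soundness -/
theorem ID.sound {D b : ℕ} (hD : NR q (D : ℚ)) (hq2 : q ≠ 2) (hb : padicValRat q (b : ℚ) = 1)
    {r : ℚ} (h : ID D b r) : 0 ≤ padicValRat q r := by
  by_contra hcon
  push Not at hcon
  have hr0 : r ≠ 0 := by
    rintro rfl
    simp at hcon
  obtain ⟨a, ⟨ha, ⟨e, f, hef⟩, u, v, huv⟩, x, z, hxz⟩ := h
  obtain ⟨ρ, c, hρ0, hNR, hac⟩ := nr_cap hD (by rw [hb]; exact odd_one) ha hef huv
  have hb0 : (b : ℚ) ≠ 0 := by
    intro h0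
    rw [h0] at hb
    simp at hb
  have hbr0 : (b : ℚ) * r ^ 2 ≠ 0 := by (clear * - hb0 hr0; positivity)
  have hvbr : padicValRat q ((b : ℚ) * r ^ 2) = 1 + 2 * padicValRat q r := by
    rw [padicValRat.mul hb0 (by (clear * - hr0; positivity)), padicValRat.pow, hb]
    push_cast
    ring
  have hlarge : 1 < padicNorm q (b * r ^ 2) := by
    by_contra h1
    push Not at h1
    rw [pn_le_one_iff, hvbr] at h1
    omega
  have h4 : padicNorm q (4 * (D : ℚ)) = 1 := by
    have h2 : padicNorm q (2 : ℚ) = 1 := by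
      have : padicNorm q ((2 : ℕ) : ℚ) = 1 := by
        rw [padicNorm.nat_eq_one_iff]
        intro hd
        exact hq2 ((Nat.prime_dvd_prime_iff_eq hq.1 Nat.prime_two).1 hd)
      exact_mod_cast this
    rw [show (4 : ℚ) = 2 * 2 by norm_num, padicNorm.mul, padicNorm.mul, h2, hD.1, one_mul, one_mul]
  have e1 : padicNorm q (1 + 4 * D * b * r ^ 2) = padicNorm q (b * r ^ 2) := by
    have e : padicNorm q (4 * (D : ℚ) * b * r ^ 2) = padicNorm q (b * r ^ 2) := by
      rw [mul_assoc (4 * (D : ℚ)), padicNorm.mul, h4, one_mul]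
    rw [pn_add_right (by rw [e, padicNorm.one]; exact hlarge), e]
  have e2 : x ^ 2 - a * z ^ 2 = x ^ 2 - c * (ρ * z) ^ 2 := by rw [hac]; ring
  rw [e2] at hxz
  obtain ⟨σ, hσ⟩ := hNR.norm_form' x (ρ * z)
  rw [hxz, e1] at hσ
  have hσ0 : σ ≠ 0 := by
    rintro rfl
    rw [padicNorm.zero] at hσ
    rw [hσ] at hlarge
    norm_num at hlarge
  rw [← pn_sq, pn_eq_iff hbr0 (by (clear * - hσ0; positivity)), padicValRat.pow, hvbr] at hσ
  push_cast at hσ
  omega

end sound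

/-! Completeness. -/

theorem exists_auxp {D b K : ℕ} (hb0 : b ≠ 0) (hK0 : K ≠ 0) (hD0 : D ≠ 0)
    (h1 : Nat.Coprime (4 * D) b) (h2 : Nat.Coprime (4 * D * b) K) (h3 : Nat.Coprime D K) (M : ℕ) :
    ∃ p : ℕ, M < p ∧ p.Prime ∧ p % 4 = 1 ∧ (D : ℤ) ∣ 1 - p ∧ (b : ℤ) ∣ p + 1 ∧ (K : ℤ) ∣ p + D := by
  obtain ⟨c, hc1, hc2⟩ := Nat.chineseRemainder h1 1 (b - 1)
  obtain ⟨d, hd1, hd2⟩ := Nat.chineseRemainder h2 c (K * D - D)
  have hd4 : d ≡ 1 [MOD 4 * D] := (hd1.of_mul_right b).trans hc1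
  have hdb : d ≡ b - 1 [MOD b] := (hd1.of_mul_left (4 * D)).trans hc2
  have hKD : D ≤ K * D := Nat.le_mul_of_pos_left D (Nat.pos_of_ne_zero hK0)
  have hdvdb : ∀ x : ℕ, x ≡ b - 1 [MOD b] → (b : ℤ) ∣ x + 1 := by
    intro x hx
    have h := Nat.modEq_iff_dvd.1 hx
    have h2 : ((b - 1 : ℕ) : ℤ) = b - 1 := by omega
    rw [h2] at h
    have e : (x : ℤ) + 1 = b - (b - 1 - x) := by ring
    rw [e]
    exact dvd_sub (dvd_refl _) h
  have hdvdK : ∀ x : ℕ, x ≡ K * D - D [MOD K] → (K : ℤ) ∣ x + D := by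
    intro x hx
    have h := Nat.modEq_iff_dvd.1 hx
    have h2 : ((K * D - D : ℕ) : ℤ) = K * D - D := by
      rw [Nat.cast_sub hKD]; push_cast; ring
    rw [h2] at h
    have e : (x : ℤ) + D = K * D - (K * D - D - x) := by ring
    rw [e]
    exact dvd_sub (dvd_mul_right _ _) h
  have hco : Nat.Coprime d (4 * D * b * K) := by
    refine Nat.Coprime.mul_right (Nat.Coprime.mul_right ?_ ?_) ?_
    · rw [Nat.Coprime, hd4.gcd_eq]; exact Nat.gcd_one_left _
    · obtain ⟨k, hk⟩ := hdvdb d hdb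
      have : IsCoprime (d : ℤ) (b : ℤ) := ⟨-1, k, by linarith only [hk]⟩
      exact Nat.isCoprime_iff_coprime.1 this
    · obtain ⟨k, hk⟩ := hdvdK d hd2
      have h4 : IsCoprime (D : ℤ) (K : ℤ) := Nat.isCoprime_iff_coprime.2 h3
      have e : (d : ℤ) = -D + K * k := by linarith only [hk]
      have : IsCoprime (d : ℤ) (K : ℤ) := by
        rw [e]
        exact (h4.neg_left).add_mul_left_left k
      exact Nat.isCoprime_iff_coprime.1 this
  have hne : 4 * D * b * K ≠ 0 := by positivity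
  obtain ⟨p, hp1, hp2, hp3⟩ := Nat.forall_exists_prime_gt_and_modEq M hne hco
  have hp4 : p ≡ 1 [MOD 4 * D] := ((hp3.of_mul_right K).of_mul_right b).trans hd4
  refine ⟨p, hp1, hp2, ?_, ?_, ?_, ?_⟩
  · have : p ≡ 1 [MOD 4] := hp4.of_mul_right D
    exact this
  · have : p ≡ 1 [MOD D] := hp4.of_mul_left 4
    simpa using Nat.modEq_iff_dvd.1 this
  · exact hdvdb p (((hp3.of_mul_right K).of_mul_left (4 * D)).trans hdb)
  · exact hdvdK p ((hp3.of_mul_left (4 * D * b)).trans hd2)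

/-- completeness for integers -/
theorem ID.complete {D b : ℕ} (hD : D.Prime) (hD4 : D % 4 = 3) (hb4 : b % 4 = 1)
    (hDb : Nat.Coprime D b) (hbns : ∀ k : ℤ, (b : ℤ) ≠ k ^ 2) (R : ℤ) : ID D b R := by
  obtain ⟨K, hK⟩ : ∃ K : ℕ, K = 1 + 4 * D * b * R.natAbs ^ 2 := ⟨_, rfl⟩
  have hKq : 1 + 4 * (D : ℚ) * b * (R : ℚ) ^ 2 = K := by
    rw [hK]
    push_cast
    have : ((R.natAbs : ℕ) : ℚ) ^ 2 = (R : ℚ) ^ 2 := by
      rw [Nat.cast_natAbs, Int.cast_abs, sq_abs]
    rw [this]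
  have hK4 : K % 4 = 1 := by
    rw [hK]
    have : 4 * D * b * R.natAbs ^ 2 = 4 * (D * b * R.natAbs ^ 2) := by ring
    omega
  have hDodd : Odd D := by rw [Nat.odd_iff]; omega
  have hbodd : Odd b := by rw [Nat.odd_iff]; omega
  have hKodd : Odd K := by rw [Nat.odd_iff]; omega
  have hcK : ∀ x : ℕ, x ∣ 4 * D * b → Nat.Coprime x K := by
    intro x hx
    obtain ⟨y, hy⟩ := hx
    have : IsCoprime (x : ℤ) (K : ℤ) := by
      refine ⟨-(y * R.natAbs ^ 2), 1, ?_⟩
      rw [hK, hy]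
      push_cast
      ring
    exact Nat.isCoprime_iff_coprime.1 this
  have h1 : Nat.Coprime (4 * D) b := by
    refine Nat.Coprime.mul_left ?_ hDb
    rw [show 4 = 2 ^ 2 by norm_num]
    exact Nat.Coprime.pow_left 2 (Nat.coprime_two_left.2 hbodd)
  obtain ⟨p, hpM, hp, hp4, hpD, hpb, hpK⟩ := exists_auxp (D := D) (b := b) (K := K)
    (by omega) (by omega) hD.ne_zero h1 (hcK _ (dvd_refl _))
    (hcK _ ⟨4 * b, by ring⟩) (D + b + K)
  have hpodd : Odd p := by rw [Nat.odd_iff]; omega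
  have hp0 : (0 : ℤ) < p := by exact_mod_cast hp.pos
  have hpgt : ∀ x : ℕ, 0 < x → x < p → IsCoprime (p : ℤ) (x : ℤ) := by
    intro x hx hxp
    rw [Nat.isCoprime_iff_coprime, Nat.Prime.coprime_iff_not_dvd hp]
    intro hd
    have := Nat.le_of_dvd hx hd
    omega
  have hcpD := hpgt D hD.pos (by omega)
  have hcpb := hpgt b (by omega) (by omega)
  have hcpK := hpgt K (by omega) (by omega)
  -- first conic
  have hJD : jacobiSym D p = 1 := by
    rw [jacobiSym.quadratic_reciprocity_one_mod_four' (a := D) (b := p) hDodd hp4]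
    have e : (p : ℤ) % D = 1 % D := (Int.modEq_iff_dvd.2 hpD)
    rw [jacobiSym.mod_left' e]
    exact jacobiSym.one_left D
  obtain ⟨t₁, ht₁⟩ := sq_of_jacobi hp hJD
  obtain ⟨f, e, hfe⟩ := gconic1 (α := p) (β := D) (s := 1) (t := t₁) hp0
    (by exact_mod_cast hD.ne_zero) hcpD (by simpa using hpD) ht₁ (prime_not_sq hD)
  -- second conic
  have hJb : jacobiSym b p = 1 := by
    rw [jacobiSym.quadratic_reciprocity_one_mod_four (a := b) (b := p) hb4 hpodd]
    have e : (p : ℤ) % b = (-1 : ℤ) % b := Int.modEq_iff_dvd.2 (by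
      have e2 : (-1 : ℤ) - p = -(p + 1) := by ring
      rw [e2]; exact (dvd_neg).2 hpb)
    rw [jacobiSym.mod_left' e, jacobiSym.at_neg_one hbodd]
    exact ZMod.χ₄_nat_one_mod_four hb4
  obtain ⟨t₂, ht₂⟩ := sq_of_jacobi hp hJb
  obtain ⟨x₂, z₂, h₂⟩ := gconic2 (α := b) (β := -(p : ℤ)) (s := t₂) (t := 1)
    (by omega) (by omega) (hcpb.symm.neg_right) ((neg_dvd).2 ht₂)
    (by
      have e2 : (1 : ℤ) ^ 2 - -(p : ℤ) = p + 1 := by ring
      rw [e2]; exact hpb) hbns
  -- third conic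
  have hJK : jacobiSym K p = 1 := by
    rw [jacobiSym.quadratic_reciprocity_one_mod_four (a := K) (b := p) hK4 hpodd]
    have e : (p : ℤ) % K = (-(D : ℤ)) % K := Int.modEq_iff_dvd.2 (by
      have e2 : (-(D : ℤ)) - p = -(p + D) := by ring
      rw [e2]; exact (dvd_neg).2 hpK)
    rw [jacobiSym.mod_left' e, jacobiSym.neg _ hKodd,
      jacobiSym.quadratic_reciprocity_one_mod_four' (a := D) (b := K) hDodd hK4]
    have e3 : (K : ℤ) % D = 1 % D := Int.modEq_iff_dvd.2 (by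
      rw [hK]
      exact ⟨-(4 * b * R.natAbs ^ 2), by push_cast; ring⟩)
    rw [jacobiSym.mod_left' e3, jacobiSym.one_left D, mul_one]
    exact ZMod.χ₄_nat_one_mod_four hK4
  obtain ⟨t₃, ht₃⟩ := sq_of_jacobi hp hJK
  -- a square root of `K` modulo `D * p`
  obtain ⟨s₃, hs₃⟩ : ∃ s : ℤ, ((D : ℤ) * p) ∣ s ^ 2 - K := by
    obtain ⟨m₁, m₂, hm⟩ := hcpD
    -- m₁ p + m₂ D = 1
    refine ⟨m₁ * p * 1 + m₂ * D * t₃, ?_⟩
    refine IsCoprime.mul_dvd (hpgt D hD.pos (by omega)).symm ?_ ?_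
    · have h5 : (D : ℤ) ∣ 1 - K := by
        rw [hK]
        exact ⟨-(4 * b * R.natAbs ^ 2), by push_cast; ring⟩
      have e : (m₁ * p * 1 + m₂ * D * t₃) ^ 2 - (K : ℤ) = (1 - K) +
          D * (m₂ * (t₃ - 1) * (2 + m₂ * D * (t₃ - 1))) := by
        have : m₁ * (p : ℤ) = 1 - m₂ * D := by linarith only [hm]
        rw [this]; ring
      rw [e]
      exact dvd_add h5 (dvd_mul_right _ _)
    · have e : (m₁ * p * 1 + m₂ * D * t₃) ^ 2 - (K : ℤ) = (t₃ ^ 2 - K) +
          p * (m₁ * (1 - t₃) * (2 * t₃ + m₁ * p * (1 - t₃))) := by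
        have : m₂ * (D : ℤ) = 1 - m₁ * p := by linarith only [hm]
        rw [this]; ring
      rw [e]
      exact dvd_add ht₃ (dvd_mul_right _ _)
  have hDK : IsCoprime (K : ℤ) (D : ℤ) :=
    (Nat.isCoprime_iff_coprime.2 (hcK D ⟨4 * b, by ring⟩)).symm
  obtain ⟨x₃, z₃, h₃⟩ := gconic1 (α := K) (β := -((D : ℤ) * p)) (s := s₃) (t := D)
    (by omega) (neg_ne_zero.2 (mul_ne_zero (by exact_mod_cast hD.ne_zero) hp0.ne'))
    ((hDK.mul_right hcpK.symm).neg_right) ((neg_dvd).2 hs₃)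
    (by
      obtain ⟨k, hk⟩ := hpK
      exact ⟨D * k, by linear_combination (D : ℤ) * hk⟩)
    (by
      intro k hk
      have h5 : (0 : ℤ) < D * p := mul_pos (by exact_mod_cast hD.pos) hp0
      have h6 := sq_nonneg k
      omega)
  -- conclusion
  push_cast at hfe h₂ h₃
  have hDq : (D : ℚ) ≠ 0 := by exact_mod_cast hD.ne_zero
  have hpq : (p : ℚ) ≠ 0 := by exact_mod_cast hp.ne_zero
  refine ⟨-(D * p), ⟨neg_ne_zero.2 (mul_ne_zero hDq hpq), ⟨D * e, f, ?_⟩, ⟨D * x₂, D * z₂, ?_⟩⟩,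
    ⟨x₃, z₃, ?_⟩⟩
  · rw [hfe]; ring
  · linear_combination (D : ℚ) ^ 2 * h₂
  · rw [hKq, h₃]

/-- the data for an odd prime -/
theorem exists_D {p : ℕ} (hp : p.Prime) (hp2 : p ≠ 2) (M : ℕ) :
    ∃ D : ℕ, M < D ∧ D.Prime ∧ D % 4 = 3 ∧ ¬ IsSquare ((D : ℕ) : ZMod p) := by
  have := Fact.mk hp
  have hchar : ringChar (ZMod p) ≠ 2 := by rwa [ZMod.ringChar_zmod_n]
  obtain ⟨n, hn⟩ := FiniteField.exists_nonsquare hchar
  have h4p : Nat.Coprime 4 p := by
    rw [show 4 = 2 ^ 2 by norm_num]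
    exact Nat.Coprime.pow_left 2 (Nat.coprime_two_left.2 (hp.odd_of_ne_two hp2))
  obtain ⟨c, hc1, hc2⟩ := Nat.chineseRemainder h4p 3 n.val
  have hcn : ((c : ℕ) : ZMod p) = n := by
    rw [(ZMod.natCast_eq_natCast_iff _ _ _).2 hc2, ZMod.natCast_zmod_val]
  have hco : Nat.Coprime c (4 * p) := by
    refine Nat.Coprime.mul_right ?_ ?_
    · rw [Nat.Coprime, hc1.gcd_eq]; norm_num
    · rw [Nat.coprime_comm, Nat.Prime.coprime_iff_not_dvd hp]
      intro hd
      apply hn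
      rw [← hcn, (ZMod.natCast_eq_zero_iff _ _).2 hd]
      exact ⟨0, by simp⟩
  obtain ⟨D, hD1, hD2, hD3⟩ := Nat.forall_exists_prime_gt_and_modEq M
    (by have := hp.pos; positivity : 4 * p ≠ 0) hco
  refine ⟨D, hD1, hD2, ?_, ?_⟩
  · have : D ≡ 3 [MOD 4] := (hD3.of_mul_right p).trans hc1
    exact this
  · have h5 : ((D : ℕ) : ZMod p) = n := by
      rw [(ZMod.natCast_eq_natCast_iff _ _ _).2 (hD3.of_mul_left 4), hcn]
    rwa [h5]

/-- the Diophantine condition `ID` for an odd prime: sound for rational numbers, complete for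
integers -/
theorem exists_ID {p : ℕ} (hp : p.Prime) (hp2 : p ≠ 2) : ∃ D b : ℕ,
    (∀ r : ℚ, ID D b r → 0 ≤ padicValRat p r) ∧ ∀ R : ℤ, ID D b R := by
  have hF := Fact.mk hp
  have hodd := hp.odd_of_ne_two hp2
  obtain ⟨D, hDM, hD, hD4, hDns⟩ := exists_D hp hp2 (p * (p + 4))
  have hpc : Nat.Coprime p (p + 4) := by
    rw [Nat.coprime_self_add_right, show 4 = 2 ^ 2 by norm_num]
    exact Nat.Coprime.pow_right 2 (Nat.coprime_two_right.2 hodd)
  have hval : padicValRat p (((p * (p + 4) : ℕ) : ℚ)) = 1 := by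
    rw [padicValRat.of_nat]
    have h4 : p + 4 ≠ 0 := by omega
    rw [padicValNat.mul hp.ne_zero h4, padicValNat.self hp.one_lt,
      padicValNat.eq_zero_of_not_dvd ((Nat.Prime.coprime_iff_not_dvd hp).1 hpc)]
    norm_num
  have hpos : 0 < p * (p + 4) := Nat.mul_pos hp.pos (by omega)
  refine ⟨D, p * (p + 4), fun r h => ?_, fun R => ?_⟩
  · refine ID.sound (q := p) ?_ hp2 hval h
    have h1 : ¬ IsSquare ((D : ℤ) : ZMod p) := by rwa [Int.cast_natCast]
    have := NR_of_int h1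
    exact_mod_cast this
  · refine ID.complete hD hD4 ?_ ?_ ?_ R
    · obtain ⟨k, hk⟩ := hodd
      rw [hk]
      have : (2 * k + 1) * (2 * k + 1 + 4) = 4 * (k ^ 2 + 3 * k + 1) + 1 := by ring
      omega
    · rw [Nat.Prime.coprime_iff_not_dvd hD]
      intro hd
      have := Nat.le_of_dvd hpos hd
      omega
    · intro k hk
      have h5 : ((p * (p + 4) : ℕ) : ℚ) = (k : ℚ) ^ 2 := by exact_mod_cast hk
      rw [h5, padicValRat.pow] at hval
      omega

theorem dio_ID (D b : ℕ) {f : (ℕ → ℚ) → ℚ} (hf : DioFn f) : Dio (fun v => ID D b (f v)) := by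
  refine Dio.app1 ?_ hf
  unfold ID CapD ConD
  refine Dio.ex (S := fun a v => (a ≠ 0 ∧ (∃ e f : ℚ, a = e ^ 2 - D * f ^ 2) ∧
    ∃ u v : ℚ, D * a = u ^ 2 - b * v ^ 2) ∧ ∃ x z : ℚ, x ^ 2 - a * z ^ 2 = 1 + 4 * D * b * (v 0) ^ 2) ?_
  refine ((Dio.ne (DioFn.var 0) zero_fn).and ((Dio.ex (Dio.ex ?_)).and (Dio.ex (Dio.ex ?_)))).and
    (Dio.ex (Dio.ex ?_))
  · exact Dio.eq (DioFn.var 2) (((DioFn.var 1).pow 2).sub ((DioFn.num D).mul ((DioFn.var 0).pow 2)))
  · exact Dio.eq ((DioFn.num D).mul (DioFn.var 2))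
      (((DioFn.var 1).pow 2).sub ((DioFn.num b).mul ((DioFn.var 0).pow 2)))
  · exact Dio.eq (((DioFn.var 1).pow 2).sub ((DioFn.var 2).mul ((DioFn.var 0).pow 2)))
      (one_fn.add ((((lit_fn 4).mul (DioFn.num D)).mul (DioFn.num b)).mul ((DioFn.var 3).pow 2)))

/-- the numbers integral at `p`, in terms of a condition sound for rational numbers and complete
for integers -/
theorem int_iff_of {p : ℕ} (hp : p.Prime) {I : ℚ → Prop} (h1 : ∀ r : ℚ, I r → 0 ≤ padicValRat p r)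
    (h2 : ∀ R : ℤ, I R) (x : ℚ) : 0 ≤ padicValRat p x ↔
      ∃ r s : ℚ, s ≠ 0 ∧ x * s = r ∧ I r ∧ I s ∧ I ((s ^ (p - 1) - 1) / p) := by
  have hF := Fact.mk hp
  constructor
  · intro hx
    have hden : ¬ p ∣ x.den := by
      intro hd
      have h3 : padicNorm p x ≤ 1 := pn_le_one_iff.2 hx
      have h4 : ¬ (p : ℤ) ∣ x.num := by
        intro hd'
        have h5 : p ∣ Nat.gcd x.num.natAbs x.den := Nat.dvd_gcd (Int.natCast_dvd.1 hd') hd
        rw [x.reduced] at h5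
        exact hp.one_lt.ne' (Nat.dvd_one.1 h5)
      have h6 : padicNorm p x = padicNorm p x.num / padicNorm p x.den := by
        rw [← padicNorm.div]
        congr 1
        exact (Rat.num_div_den x).symm
      have h7 : padicNorm p (x.num : ℚ) = 1 := (padicNorm.int_eq_one_iff _).2 h4
      have h8 : padicNorm p (x.den : ℚ) < 1 := (padicNorm.nat_lt_one_iff _).2 hd
      have h9 : 0 < padicNorm p (x.den : ℚ) := pn_pos (by exact_mod_cast x.den_ne_zero)
      rw [h6, h7, div_le_one h9] at h3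
      linarith only [h3, h8]
    refine ⟨x.num, x.den, by exact_mod_cast x.den_ne_zero, Rat.mul_den_eq_num x, h2 _, ?_, ?_⟩
    · have := h2 (x.den : ℤ)
      exact_mod_cast this
    · have hcop : IsCoprime (x.den : ℤ) (p : ℤ) := by
        rw [Nat.isCoprime_iff_coprime, Nat.coprime_comm, Nat.Prime.coprime_iff_not_dvd hp]
        exact hden
      obtain ⟨k, hk⟩ := (Int.ModEq.pow_card_sub_one_eq_one hp hcop).symm.dvd
      have := h2 k
      have e : (((x.den : ℚ)) ^ (p - 1) - 1) / p = k := by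
        have hpq : (p : ℚ) ≠ 0 := by exact_mod_cast hp.ne_zero
        rw [div_eq_iff hpq, mul_comm]
        exact_mod_cast hk
      rwa [e]
  · rintro ⟨r, s, hs0, hxs, hr, hs, hsp⟩
    have hv : padicValRat p s = 0 := by
      have h3 := h1 _ hsp
      have h4 := h1 _ hs
      by_contra hne
      have h5 : 0 < padicValRat p s := by omega
      have h6 : padicNorm p s < 1 := by
        have h7 : padicNorm p s ≤ 1 := pn_le_one_iff.2 h4
        refine lt_of_le_of_ne h7 (fun h8 => ?_)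
        rw [← padicNorm.one (p := p), pn_eq_iff hs0 one_ne_zero, padicValRat.one] at h8
        omega
      have hp1 : p - 1 ≠ 0 := by have := hp.two_le; omega
      have h7 : padicNorm p (s ^ (p - 1)) < 1 := by
        have h8 : ∀ n : ℕ, padicNorm p (s ^ n) = padicNorm p s ^ n := by
          intro n
          induction n with
          | zero => simp
          | succ n ih => rw [pow_succ, padicNorm.mul, ih, pow_succ]
        rw [h8]
        exact pow_lt_one₀ (padicNorm.nonneg _) h6 hp1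
      have h8 : padicNorm p (s ^ (p - 1) - 1) = 1 := by
        rw [pn_sub_right (by rw [padicNorm.one]; exact h7), padicNorm.one]
      have h9 : padicNorm p ((s ^ (p - 1) - 1) / p) ≤ 1 := pn_le_one_iff.2 h3
      rw [padicNorm.div, h8, padicNorm.padicNorm_p hp.one_lt, one_div, inv_inv] at h9
      have h10 : (1 : ℚ) < p := by exact_mod_cast hp.one_lt
      linarith only [h9, h10]
    rcases eq_or_ne x 0 with rfl | hx0
    · simp
    have h3 := h1 _ hr
    rw [← hxs, padicValRat.mul hx0 hs0, hv, add_zero] at h3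
    exact h3

/-- the rational numbers integral at a prime form a Diophantine set -/
theorem dio_intp {p : ℕ} (hp : p.Prime) {f : (ℕ → ℚ) → ℚ} (hf : DioFn f) :
    Dio (fun v => 0 ≤ padicValRat p (f v)) := by
  rcases eq_or_ne p 2 with rfl | hp2
  · exact dio_int2 hf
  obtain ⟨D, b, h1, h2⟩ := exists_ID hp hp2
  refine Dio.app1 (S := fun x => 0 ≤ padicValRat p x) ?_ hf
  have h : Dio (fun v => ∃ r s : ℚ, s ≠ 0 ∧ v 0 * s = r ∧ ID D b r ∧ ID D b s ∧
      ID D b ((s ^ (p - 1) - 1) / p)) := by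
    refine Dio.ex (Dio.ex ?_)
    exact (Dio.ne (DioFn.var 0) zero_fn).and ((Dio.eq ((DioFn.var 2).mul (DioFn.var 0))
      (DioFn.var 1)).and ((dio_ID D b (DioFn.var 1)).and ((dio_ID D b (DioFn.var 0)).and
      (dio_ID D b ((((DioFn.var 0).pow (p - 1)).sub one_fn).div (DioFn.num p))))))
  exact h.congr (fun v => int_iff_of hp h1 h2 _)

end Vale.Agent.P027.T2
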