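import Vale.Agent.P027.Bdl.B1

set_option linter.all false

/-! Finitely many variables and common denominators: a Diophantine predicate over the rationals at
integers `a` and rational numbers `u` is given by one polynomial with integer witnesses
(completeness) and rational witnesses (soundness). -/

namespace Vale.Agent.P027.T2

open MvPolynomial Vale.Agent.P027

/-- clearing a common denominator -/
theorem clear_den {α : Type} {m : ℕ} (p : MvPolynomial (α ⊕ Fin m) ℤ) :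
    ∃ (k : ℕ) (F : MvPolynomial (α ⊕ Option (Fin m)) ℤ), ∀ (x : α → ℚ) (y : Fin m → ℚ) (D : ℚ),
      D ≠ 0 → aeval (Sum.elim x (fun o => o.elim D y)) F =
        D ^ k * aeval (Sum.elim x (fun j => y j / D)) p := by
  induction p using MvPolynomial.induction_on with
  | C a =>
    exact ⟨0, C a, fun x y D hD => by simp⟩
  | add p q hp hq =>
    obtain ⟨k, F, hF⟩ := hp
    obtain ⟨l, H, hH⟩ := hq
    refine ⟨k + l, F * X (Sum.inr none) ^ l + H * X (Sum.inr none) ^ k, fun x y D hD => ?_⟩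
    simp only [map_add, map_mul, map_pow, aeval_X, hF x y D hD, hH x y D hD, Sum.elim_inr,
      Option.elim_none]
    ring
  | mul_X p i hp =>
    obtain ⟨k, F, hF⟩ := hp
    rcases i with i | j
    · refine ⟨k, F * X (Sum.inl i), fun x y D hD => ?_⟩
      simp only [map_mul, aeval_X, hF x y D hD, Sum.elim_inl]
      ring
    · refine ⟨k + 1, F * X (Sum.inr (some j)), fun x y D hD => ?_⟩
      simp only [map_mul, aeval_X, hF x y D hD, Sum.elim_inr, Option.elim_some]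
      field_simp
      ring

theorem common_den {m : ℕ} (y : Fin m → ℚ) :
    ∃ (D : ℕ) (N : Fin m → ℤ), 1 ≤ D ∧ ∀ j, y j = (N j : ℚ) / (D : ℚ) := by
  refine ⟨∏ j, (y j).den, fun j => (y j).num * ∏ i ∈ Finset.univ.erase j, ((y i).den : ℤ),
    Nat.one_le_iff_ne_zero.2 (Finset.prod_ne_zero_iff.2 fun j _ => (y j).den_ne_zero), fun j => ?_⟩
  have h1 : (∏ i, ((y i).den : ℚ)) = ((y j).den : ℚ) * ∏ i ∈ Finset.univ.erase j, ((y i).den : ℚ) :=
    (Finset.mul_prod_erase _ _ (Finset.mem_univ j)).symm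
  have h2 : (∏ i ∈ Finset.univ.erase j, ((y i).den : ℚ)) ≠ 0 :=
    Finset.prod_ne_zero_iff.2 fun i _ => by exact_mod_cast (y i).den_ne_zero
  push_cast
  rw [h1, mul_div_mul_right _ _ h2]
  exact (Rat.num_div_den (y j)).symm

/-- environment of integers `a` and rational numbers `u` -/
def envT {k m : ℕ} (a : Fin k → ℤ) (u : Fin m → ℚ) : ℕ → ℚ := fun i =>
  if h : i < k then (a ⟨i, h⟩ : ℚ) else if h' : i - k < m then u ⟨i - k, h'⟩ else 0

theorem pack {k m : ℕ} {D : (ℕ → ℚ) → Prop} (hD : Dio D) :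
    ∃ (r : ℕ) (F : MvPolynomial (Fin k ⊕ Fin m ⊕ Fin r) ℤ), ∀ (a : Fin k → ℤ) (u : Fin m → ℚ),
      (D (envT a u) → ∃ y : Fin r → ℤ,
        aeval (Sum.elim (fun i => (a i : ℚ)) (Sum.elim u (fun j => (y j : ℚ)))) F = 0) ∧
      ((∃ y : Fin r → ℚ, aeval (Sum.elim (fun i => (a i : ℚ)) (Sum.elim u y)) F = 0) →
        D (envT a u)) := by
  obtain ⟨p, hp⟩ := hD
  obtain ⟨r, hr⟩ : ∃ r : ℕ, ∀ j, Sum.inr j ∈ p.vars → j < r := by
    refine ⟨(p.vars.toRight.sup id).succ, fun j hj => ?_⟩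
    rw [Nat.lt_succ_iff]
    exact Finset.le_sup (f := id) (by simpa using hj)
  let φ : ℕ ⊕ ℕ → MvPolynomial ((Fin k ⊕ Fin m) ⊕ Fin r) ℤ :=
    Sum.elim (fun i => if h : i < k then X (Sum.inl (Sum.inl ⟨i, h⟩)) else
      if h' : i - k < m then X (Sum.inl (Sum.inr ⟨i - k, h'⟩)) else 0)
      (fun i => if h : i < r then X (Sum.inr ⟨i, h⟩) else 0)
  obtain ⟨l, F, hF⟩ := clear_den (aeval φ p)
  let D' : MvPolynomial (Fin k ⊕ Fin m ⊕ Fin (r + 4)) ℤ :=
    1 + X (Sum.inr (Sum.inr (Fin.natAdd r 0))) ^ 2 + X (Sum.inr (Sum.inr (Fin.natAdd r 1))) ^ 2 +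
      X (Sum.inr (Sum.inr (Fin.natAdd r 2))) ^ 2 + X (Sum.inr (Sum.inr (Fin.natAdd r 3))) ^ 2
  let ψ : (Fin k ⊕ Fin m) ⊕ Option (Fin r) → MvPolynomial (Fin k ⊕ Fin m ⊕ Fin (r + 4)) ℤ :=
    Sum.elim (Sum.elim (fun i => X (Sum.inl i)) (fun i => X (Sum.inr (Sum.inl i))))
      (fun o => o.elim D' (fun j => X (Sum.inr (Sum.inr (Fin.castAdd 4 j)))))
  refine ⟨r + 4, aeval ψ F, fun a u => ?_⟩
  have pos : ∀ (y : Fin (r + 4) → ℚ), 0 < 1 + y (Fin.natAdd r 0) ^ 2 + y (Fin.natAdd r 1) ^ 2 +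
      y (Fin.natAdd r 2) ^ 2 + y (Fin.natAdd r 3) ^ 2 := by
    intro y
    have h2 := sq_nonneg (y (Fin.natAdd r 0))
    have h3 := sq_nonneg (y (Fin.natAdd r 1))
    have h4 := sq_nonneg (y (Fin.natAdd r 2))
    have h5 := sq_nonneg (y (Fin.natAdd r 3))
    linarith
  have ev : ∀ (y : Fin (r + 4) → ℚ) (d : ℚ),
      d = 1 + y (Fin.natAdd r 0) ^ 2 + y (Fin.natAdd r 1) ^ 2 + y (Fin.natAdd r 2) ^ 2 +
        y (Fin.natAdd r 3) ^ 2 →
      aeval (Sum.elim (fun i => (a i : ℚ)) (Sum.elim u y)) (aeval ψ F) =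
        d ^ l * aeval (Sum.elim (envT a u) (fun i => if h : i < r then
          y (Fin.castAdd 4 ⟨i, h⟩) / d else 0)) p := by
    intro y d hd
    have hd0 : d ≠ 0 := by
      have := pos y
      rw [← hd] at this
      exact this.ne'
    have h6 := hF (Sum.elim (fun i => (a i : ℚ)) u) (fun j => y (Fin.castAdd 4 j)) d hd0
    rw [← AlgHom.comp_apply, comp_aeval] at h6
    have e1 : (fun i => (aeval (Sum.elim (Sum.elim (fun i => (a i : ℚ)) u)
        fun j => y (Fin.castAdd 4 j) / d)) (φ i)) =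
        Sum.elim (envT a u) (fun i => if h : i < r then y (Fin.castAdd 4 ⟨i, h⟩) / d else 0) := by
      funext i
      rcases i with i | i
      · simp only [φ, Sum.elim_inl, envT]
        split_ifs <;> simp
      · simp only [φ, Sum.elim_inr]
        split_ifs <;> simp
    rw [e1] at h6
    rw [← h6, ← AlgHom.comp_apply, comp_aeval]
    congr 2
    funext i
    rcases i with (i | i) | (_ | i)
    · simp [ψ]
    · simp [ψ]
    · simp only [ψ, Sum.elim_inr, Option.elim_none, D', map_add, map_one, map_pow, aeval_X]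
      exact hd.symm
    · simp [ψ]
  constructor
  · intro h
    obtain ⟨y, hy⟩ := (hp _).1 h
    obtain ⟨d', N, hd', hN⟩ := common_den (fun j : Fin r => y j)
    obtain ⟨s1, s2, s3, s4, hs⟩ := Nat.sum_four_squares (d' - 1)
    have hD1 : (d' : ℚ) = 1 + (s1 : ℚ) ^ 2 + (s2 : ℚ) ^ 2 + (s3 : ℚ) ^ 2 + (s4 : ℚ) ^ 2 := by
      have : d' = 1 + s1 ^ 2 + s2 ^ 2 + s3 ^ 2 + s4 ^ 2 := by omega
      exact_mod_cast this
    let z : Fin (r + 4) → ℤ := Fin.addCases N ![(s1 : ℤ), s2, s3, s4]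
    refine ⟨z, ?_⟩
    rw [ev (fun j => (z j : ℚ)) d' (by
      simp only [z, Fin.addCases_right]
      change (d' : ℚ) = 1 + (((s1 : ℕ) : ℤ) : ℚ) ^ 2 + (((s2 : ℕ) : ℤ) : ℚ) ^ 2 +
        (((s3 : ℕ) : ℤ) : ℚ) ^ 2 + (((s4 : ℕ) : ℤ) : ℚ) ^ 2
      simpa only [Int.cast_natCast] using hD1)]
    have e2 : aeval (Sum.elim (envT a u) (fun i => if h : i < r then
        ((z (Fin.castAdd 4 ⟨i, h⟩) : ℤ) : ℚ) / d' else 0)) p = aeval (Sum.elim (envT a u) y) p := by
      refine eval₂Hom_congr' rfl ?_ rfl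
      intro i hi _
      rcases i with i | i
      · rfl
      · simp only [Sum.elim_inr]
        rw [dif_pos (hr i hi)]
        simp only [z, Fin.addCases_left]
        exact (hN ⟨i, hr i hi⟩).symm
    rw [e2, hy, mul_zero]
  · rintro ⟨y, hy⟩
    rw [ev y _ rfl] at hy
    exact (hp _).2 ⟨_, (mul_eq_zero.1 hy).resolve_left (pow_ne_zero _ (pos y).ne')⟩

end Vale.Agent.P027.T2
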