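import Vale.Agent.P027.R2.H250.Pack

set_option linter.all false

/-! Calculus of positive existential predicates over the rationals with an extra unary predicate
`G`, uniformly for all sets `G ∋ 1` in a class `A` of sets of rational numbers. -/

namespace Vale.Agent.P027.T2

open MvPolynomial Vale.Agent.P027

/-- environment: `v` for the free variables, `y` for the bound ones (in pairs, the second member
`y i true` of each pair is in the set `G`) -/
def env (v : ℕ → ℚ) (y : ℕ → Bool → ℚ) : ℕ ⊕ ℕ × Bool → ℚ :=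
  Sum.elim v (fun ij => y ij.1 ij.2)

/-- positive existential predicates with an extra unary predicate `G`, uniformly in `G`
(in the class `A`, with `1 ∈ G`) -/
def TD (A : Set ℚ → Prop) (S : Set ℚ → (ℕ → ℚ) → Prop) : Prop :=
  ∃ p : MvPolynomial (ℕ ⊕ ℕ × Bool) ℤ, ∀ G : Set ℚ, A G → (1 : ℚ) ∈ G → ∀ v : ℕ → ℚ,
    S G v ↔ ∃ y : ℕ → Bool → ℚ, aeval (env v y) p = 0 ∧ ∀ i, y i true ∈ G

variable {A : Set ℚ → Prop}

/-- a pair of a rational number and a member of `G` -/
def pr (x u : ℚ) : Bool → ℚ := fun b => Bool.rec x u b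

theorem pr_true (x u : ℚ) : pr x u true = u := rfl
theorem pr_false (x u : ℚ) : pr x u false = x := rfl

theorem TD.congr {S T : Set ℚ → (ℕ → ℚ) → Prop} (h : TD A S)
    (e : ∀ G, A G → (1 : ℚ) ∈ G → ∀ v, T G v ↔ S G v) : TD A T := by
  obtain ⟨p, hp⟩ := h
  exact ⟨p, fun G hG h1 v => (e G hG h1 v).trans (hp G hG h1 v)⟩

theorem TD.of_dio {S : (ℕ → ℚ) → Prop} (h : Dio S) : TD A (fun _ => S) := by
  obtain ⟨p, hp⟩ := h
  refine ⟨rename (Sum.map id (fun i => (i, false))) p, fun G hG h1 v => ?_⟩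
  have key : ∀ (y : ℕ → Bool → ℚ),
      env v y ∘ Sum.map id (fun i => (i, false)) = Sum.elim v (fun i => y i false) := by
    intro y; funext i; rcases i with i | i <;> rfl
  simp only [aeval_rename, key, hp]
  constructor
  · rintro ⟨y, hy⟩
    exact ⟨fun i => pr (y i) 1, by simpa only [pr_false] using hy, fun i => h1⟩
  · rintro ⟨y, hy, -⟩
    exact ⟨_, hy⟩

theorem TD.and {S T : Set ℚ → (ℕ → ℚ) → Prop} (hS : TD A S) (hT : TD A T) :
    TD A (fun G v => S G v ∧ T G v) := by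
  obtain ⟨p, hp⟩ := hS
  obtain ⟨q, hq⟩ := hT
  refine ⟨(rename (Sum.map id (fun ij => (2 * ij.1, ij.2))) p) ^ 2 +
    (rename (Sum.map id (fun ij => (2 * ij.1 + 1, ij.2))) q) ^ 2, fun G hG h1 v => ?_⟩
  have key : ∀ (y : ℕ → Bool → ℚ) (g : ℕ → ℕ),
      env v y ∘ Sum.map id (fun ij : ℕ × Bool => (g ij.1, ij.2)) = env v (fun i => y (g i)) := by
    intro y g; funext i; rcases i with i | i <;> rfl
  simp only [map_add, map_pow, aeval_rename, key _ (fun i => 2 * i), key _ (fun i => 2 * i + 1),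
    hp G hG h1, hq G hG h1]
  constructor
  · rintro ⟨⟨y, hy, hy'⟩, ⟨z, hz, hz'⟩⟩
    refine ⟨fun i => if i % 2 = 0 then y (i / 2) else z (i / 2), ?_, ?_⟩
    · have e1 : (fun i => (fun i : ℕ => if i % 2 = 0 then y (i / 2) else z (i / 2)) (2 * i)) = y := by
        funext i
        have h1 : (2 * i) % 2 = 0 := by omega
        have h2 : (2 * i) / 2 = i := by omega
        simp only [h1, h2, if_true]
      have e2 : (fun i => (fun i : ℕ => if i % 2 = 0 then y (i / 2) else z (i / 2)) (2 * i + 1)) =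
          z := by
        funext i
        have h1 : (2 * i + 1) % 2 = 1 := by omega
        have h2 : (2 * i + 1) / 2 = i := by omega
        simp only [h1, h2, one_ne_zero, if_false]
      rw [e1, e2, hy, hz]; norm_num
    · intro i
      beta_reduce
      split_ifs
      · exact hy' _
      · exact hz' _
  · rintro ⟨y, hy, hy'⟩
    have h1 := sq_nonneg (aeval (env v fun i => y (2 * i)) p : ℚ)
    have h2 := sq_nonneg (aeval (env v fun i => y (2 * i + 1)) q : ℚ)
    exact ⟨⟨_, pow_eq_zero_iff (n := 2) (by norm_num) |>.1 (by linarith only [h1, hy, h2]), fun i => hy' _⟩,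
      ⟨_, pow_eq_zero_iff (n := 2) (by norm_num) |>.1 (by linarith), fun i => hy' _⟩⟩

theorem TD.or {S T : Set ℚ → (ℕ → ℚ) → Prop} (hS : TD A S) (hT : TD A T) :
    TD A (fun G v => S G v ∨ T G v) := by
  obtain ⟨p, hp⟩ := hS
  obtain ⟨q, hq⟩ := hT
  refine ⟨p * q, fun G hG h1 v => ?_⟩
  simp only [hp G hG h1, hq G hG h1, map_mul, mul_eq_zero, or_and_right, exists_or]

theorem TD.ren {S : Set ℚ → (ℕ → ℚ) → Prop} (hS : TD A S) (r : ℕ → ℕ) :
    TD A (fun G v => S G (fun i => v (r i))) := by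
  obtain ⟨p, hp⟩ := hS
  refine ⟨rename (Sum.map r id) p, fun G hG h1 v => ?_⟩
  have key : ∀ (y : ℕ → Bool → ℚ),
      env v y ∘ Sum.map r id = env (fun i => v (r i)) y := by
    intro y; funext i; rcases i with i | i <;> rfl
  simp only [aeval_rename, key, hp G hG h1]

theorem TD.ex {S : Set ℚ → ℚ → (ℕ → ℚ) → Prop}
    (hS : TD A (fun G v => S G (v 0) (tl v))) : TD A (fun G v => ∃ x, S G x v) := by
  obtain ⟨p, hp⟩ := hS
  refine ⟨rename (Sum.elim (fun i => Nat.rec (Sum.inr (0, false)) (fun j _ => Sum.inl j) i)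
    (fun ij => Sum.inr (ij.1 + 1, ij.2))) p, fun G hG h1 v => ?_⟩
  have key : ∀ (y : ℕ → Bool → ℚ),
      env v y ∘ (Sum.elim (fun i => Nat.rec (Sum.inr (0, false)) (fun j _ => Sum.inl j) i)
        (fun ij => Sum.inr (ij.1 + 1, ij.2))) = env (cns (y 0 false) v) (fun i => y (i + 1)) := by
    intro y; funext i; rcases i with i | i
    · cases i <;> rfl
    · rfl
  simp only [aeval_rename, key]
  constructor
  · rintro ⟨x, hx⟩
    obtain ⟨y, hy, hy'⟩ := (hp G hG h1 (cns x v)).1 hx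
    obtain ⟨z, hz0, hz1, hz⟩ : ∃ z : ℕ → Bool → ℚ, z 0 false = x ∧ z 0 true = 1 ∧
        (fun i => z (i + 1)) = y :=
      ⟨fun i => Nat.rec (pr x 1) (fun j _ => y j) i, rfl, rfl, rfl⟩
    refine ⟨z, ?_, fun i => ?_⟩
    · rw [hz0, hz]; exact hy
    rcases i with _ | i
    · rw [hz1]; exact h1
    · have := hy' i
      rw [← hz] at this
      exact this
  · rintro ⟨y, hy, hy'⟩
    have h2 : ∃ z : ℕ → Bool → ℚ, aeval (env (cns (y 0 false) v) z) p = 0 ∧ ∀ i, z i true ∈ G :=
      ⟨fun i => y (i + 1), hy, fun i => hy' (i + 1)⟩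
    exact ⟨y 0 false, (hp G hG h1 (cns (y 0 false) v)).2 h2⟩

/-- membership of a variable in `G` -/
theorem TD.mem (i : ℕ) : TD A (fun G v => v i ∈ G) := by
  refine ⟨X (Sum.inl i) - X (Sum.inr (0, true)), fun G hG h1 v => ?_⟩
  simp only [map_sub, aeval_X]
  constructor
  · intro h
    refine ⟨fun k => if k = 0 then pr 0 (v i) else pr 0 1, ?_, fun k => ?_⟩
    · simp [env, pr]
    · beta_reduce
      split_ifs
      · exact h
      · exact h1
  · rintro ⟨y, hy, hy'⟩
    have h2 : v i = y 0 true := sub_eq_zero.1 hy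
    rw [h2]
    exact hy' 0

theorem TD.triv : TD A (fun _ _ => True) := TD.of_dio Dio.true

theorem TD.sub {S : Set ℚ → ℚ → (ℕ → ℚ) → Prop} {f : (ℕ → ℚ) → ℚ} (hf : DioFn f)
    (hS : TD A (fun G v => S G (v 0) (tl v))) : TD A (fun G v => S G (f v) v) := by
  have h : TD A (fun G v => ∃ x, x = f v ∧ S G x v) :=
    TD.ex (S := fun G x v => x = f v ∧ S G x v) ((TD.of_dio hf).and hS)
  exact h.congr (fun G _ _ v => by simp)

/-- membership of a Diophantine function in `G` -/
theorem TD.memFn {f : (ℕ → ℚ) → ℚ} (hf : DioFn f) : TD A (fun G v => f v ∈ G) :=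
  TD.sub (S := fun G x _ => x ∈ G) hf (TD.mem 0)

/-- existential quantifier over `G` -/
theorem TD.exG {S : Set ℚ → ℚ → (ℕ → ℚ) → Prop}
    (hS : TD A (fun G v => S G (v 0) (tl v))) : TD A (fun G v => ∃ x ∈ G, S G x v) := by
  have h : TD A (fun G v => ∃ x, x ∈ G ∧ S G x v) :=
    TD.ex (S := fun G x v => x ∈ G ∧ S G x v) ((TD.mem 0).and hS)
  exact h

theorem TD.exN (N : ℕ) {S : Set ℚ → (ℕ → ℚ) → Prop} (hS : TD A S) :
    TD A (fun G v => ∃ u, S G (HT.blk N u v)) := by
  induction N generalizing S with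
  | zero =>
    refine hS.congr (fun G _ _ v => ?_)
    have e : ∀ u, HT.blk 0 u v = v := fun u => by funext i; simp [HT.blk]
    simp [e]
  | succ N ih =>
    have h1 : TD A (fun G v => ∃ x, S G (cns x v)) :=
      TD.ex (S := fun G x v => S G (cns x v)) (by simpa only [cns_tl] using hS)
    refine (ih h1).congr (fun G _ _ v => ?_)
    have e : ∀ u, HT.blk (N + 1) u v = cns (u 0) (HT.blk N (tl u) v) := by
      intro u
      funext i
      rcases i with _ | i
      · simp only [HT.blk, lt_add_iff_pos_left, Order.lt_add_one_iff, zero_le, ↓reduceIte, cns_zero]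
      · rw [cns_succ]
        simp only [HT.blk, Nat.add_lt_add_iff_right, Nat.add_sub_add_right]
        rfl
    constructor
    · rintro ⟨u, hu⟩
      rw [e] at hu
      exact ⟨tl u, u 0, hu⟩
    · rintro ⟨u, x, hu⟩
      refine ⟨cns x u, ?_⟩
      rw [e]
      exact hu

theorem TD.all_lt (N : ℕ) {S : ℕ → Set ℚ → (ℕ → ℚ) → Prop} (h : ∀ k, k < N → TD A (S k)) :
    TD A (fun G v => ∀ k < N, S k G v) := by
  induction N with
  | zero => exact TD.triv.congr (fun G _ _ v => by simp)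
  | succ N ih =>
    refine ((ih (fun k hk => h k (by omega))).and (h N (by omega))).congr (fun G _ _ v => ?_)
    constructor
    · intro h1
      exact ⟨fun k hk => h1 k (by omega), h1 N (by omega)⟩
    · rintro ⟨h1, h2⟩ k hk
      rcases Nat.lt_succ_iff_lt_or_eq.1 hk with h3 | rfl
      · exact h1 k h3
      · exact h2

/-- finitely many variables, bound rational variables `y`, bound variables `u` in `G` -/
theorem TD.finite {n : ℕ} {S : Set ℚ → (Fin n → ℚ) → Prop}
    (h : TD A (fun G v => S G (fun i => v i))) :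
    ∃ (m : ℕ) (p : MvPolynomial (Fin n ⊕ Fin m ⊕ Fin m) ℤ), ∀ G, A G → (1 : ℚ) ∈ G →
      ∀ x : Fin n → ℚ, (S G x ↔ ∃ u : Fin m → ℚ, (∀ i, u i ∈ G) ∧ ∃ y : Fin m → ℚ,
        aeval (Sum.elim x (Sum.elim u y)) p = 0) := by
  obtain ⟨p, hp⟩ := h
  obtain ⟨m, hm⟩ : ∃ m : ℕ, ∀ j, Sum.inr j ∈ p.vars → j.1 < m := by
    refine ⟨(p.vars.toRight.sup (fun ij => ij.1)).succ, fun j hj => ?_⟩
    rw [Nat.lt_succ_iff]
    exact Finset.le_sup (f := fun ij : ℕ × Bool => ij.1) (by simpa using hj)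
  let φ : ℕ ⊕ ℕ × Bool → MvPolynomial (Fin n ⊕ Fin m ⊕ Fin m) ℤ :=
    Sum.elim (fun i => if h : i < n then X (Sum.inl ⟨i, h⟩) else 0)
      (fun ij => if h : ij.1 < m then
        (if ij.2 = true then X (Sum.inr (Sum.inl ⟨ij.1, h⟩)) else X (Sum.inr (Sum.inr ⟨ij.1, h⟩)))
        else 0)
  refine ⟨m, aeval φ p, fun G hG h1 x => ?_⟩
  have hp' := hp G hG h1 (fun i => if h : i < n then x ⟨i, h⟩ else 0)
  have ex : (fun i : Fin n => (fun i : ℕ => if h : i < n then x ⟨i, h⟩ else 0) (i : ℕ)) = x := by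
    funext i
    simp
  beta_reduce at hp' ex
  rw [ex] at hp'
  rw [hp']
  have ev : ∀ u y : Fin m → ℚ, aeval (Sum.elim x (Sum.elim u y)) (aeval φ p) =
      aeval (env (fun i => if h : i < n then x ⟨i, h⟩ else 0)
        (fun i => if h : i < m then pr (y ⟨i, h⟩) (u ⟨i, h⟩) else pr 0 0)) p := by
    intro u y
    rw [← AlgHom.comp_apply, comp_aeval]
    congr 2
    funext i
    rcases i with i | ⟨i, b⟩
    · simp only [φ, Sum.elim_inl, env]
      split_ifs <;> simp
    · simp only [φ, Sum.elim_inr, env]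
      split_ifs with h hb
      · rw [aeval_X, hb]
        rfl
      · rw [aeval_X]
        cases b
        · rfl
        · exact absurd rfl hb
      · cases b <;> simp [pr]
  constructor
  · rintro ⟨y, hy, hy'⟩
    refine ⟨fun j => y j true, fun j => hy' j, fun j => y j false, ?_⟩
    rw [ev]
    refine Eq.trans ?_ hy
    refine eval₂Hom_congr' rfl ?_ rfl
    intro i hi _
    rcases i with i | ⟨i, b⟩
    · rfl
    · simp only [Sum.elim_inr, env]
      rw [dif_pos (hm (i, b) hi)]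
      cases b <;> rfl
  · rintro ⟨u, hu, y, hy⟩
    rw [ev] at hy
    have hy2 : ∀ i b, (b = false ∨ i < m) →
        (fun (i : ℕ) => if h : i < m then pr (y ⟨i, h⟩) (u ⟨i, h⟩) else pr 0 1) i b =
        (fun (i : ℕ) => if h : i < m then pr (y ⟨i, h⟩) (u ⟨i, h⟩) else pr 0 0) i b := by
      intro i b hb
      beta_reduce
      split_ifs with h
      · rfl
      · rcases hb with rfl | hb
        · rfl
        · exact absurd hb h
    refine ⟨fun i => if h : i < m then pr (y ⟨i, h⟩) (u ⟨i, h⟩) else pr 0 1, ?_, fun i => ?_⟩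
    · refine Eq.trans ?_ hy
      refine eval₂Hom_congr' rfl ?_ rfl
      intro i hi _
      rcases i with i | ⟨i, b⟩
      · rfl
      · exact hy2 i b (Or.inr (hm (i, b) hi))
    · beta_reduce
      split_ifs with h
      · exact hu _
      · exact h1

/-- from rational witnesses to witnesses in an arbitrary subring of the rationals -/
theorem TD.final {n : ℕ} {S : Set ℚ → (Fin n → ℚ) → Prop}
    (h : TD A (fun G v => S G (fun i => v i))) :
    ∃ (m r : ℕ) (F : MvPolynomial (Fin n ⊕ Fin m ⊕ Fin r) ℤ), ∀ G, A G → (1 : ℚ) ∈ G →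
      ∀ (R : Subring ℚ) (x : Fin n → ℚ), (S G x ↔ ∃ u : Fin m → ℚ, (∀ i, u i ∈ G) ∧
        ∃ y : Fin r → ℚ, (∀ j, y j ∈ R) ∧ aeval (Sum.elim x (Sum.elim u y)) F = 0) := by
  obtain ⟨m, p, hp⟩ := TD.finite h
  obtain ⟨k, F, hF⟩ := clear_den (rename (Sum.elim (fun i => Sum.inl (Sum.inl i))
    (Sum.elim (fun i => Sum.inl (Sum.inr i)) (fun j => Sum.inr j))) p :
      MvPolynomial ((Fin n ⊕ Fin m) ⊕ Fin m) ℤ)
  let D : MvPolynomial (Fin n ⊕ Fin m ⊕ Fin (m + 4)) ℤ :=
    1 + X (Sum.inr (Sum.inr (Fin.natAdd m 0))) ^ 2 + X (Sum.inr (Sum.inr (Fin.natAdd m 1))) ^ 2 +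
      X (Sum.inr (Sum.inr (Fin.natAdd m 2))) ^ 2 + X (Sum.inr (Sum.inr (Fin.natAdd m 3))) ^ 2
  let ψ : (Fin n ⊕ Fin m) ⊕ Option (Fin m) → MvPolynomial (Fin n ⊕ Fin m ⊕ Fin (m + 4)) ℤ :=
    Sum.elim (Sum.elim (fun i => X (Sum.inl i)) (fun i => X (Sum.inr (Sum.inl i))))
      (fun o => o.elim D (fun j => X (Sum.inr (Sum.inr (Fin.castAdd 4 j)))))
  refine ⟨m, m + 4, aeval ψ F, fun G hG h1 R x => ?_⟩
  rw [hp G hG h1 x]
  have ev : ∀ (u : Fin m → ℚ) (y : Fin (m + 4) → ℚ) (d : ℚ),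
      d = 1 + y (Fin.natAdd m 0) ^ 2 + y (Fin.natAdd m 1) ^ 2 + y (Fin.natAdd m 2) ^ 2 +
        y (Fin.natAdd m 3) ^ 2 →
      aeval (Sum.elim x (Sum.elim u y)) (aeval ψ F) =
        d ^ k * aeval (Sum.elim x (Sum.elim u (fun j => y (Fin.castAdd 4 j) / d))) p := by
    intro u y d hd
    have hd0 : d ≠ 0 := by
      have h2 := sq_nonneg (y (Fin.natAdd m 0))
      have h3 := sq_nonneg (y (Fin.natAdd m 1))
      have h4 := sq_nonneg (y (Fin.natAdd m 2))
      have h5 := sq_nonneg (y (Fin.natAdd m 3))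
      have : 0 < d := by rw [hd]; linarith
      exact this.ne'
    have h6 := hF (Sum.elim x u) (fun j => y (Fin.castAdd 4 j)) d hd0
    rw [aeval_rename] at h6
    have e1 : (Sum.elim (Sum.elim x u) fun j => y (Fin.castAdd 4 j) / d) ∘
        (Sum.elim (fun i => Sum.inl (Sum.inl i))
          (Sum.elim (fun i => Sum.inl (Sum.inr i)) (fun j => Sum.inr j))) =
        Sum.elim x (Sum.elim u (fun j => y (Fin.castAdd 4 j) / d)) := by
      funext i; rcases i with i | i | i <;> rfl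
    rw [e1] at h6
    rw [← h6, ← AlgHom.comp_apply, comp_aeval]
    congr 2
    funext i
    rcases i with (i | i) | (_ | i)
    · simp [ψ]
    · simp [ψ]
    · simp only [ψ, Sum.elim_inr, Option.elim_none, D, map_add, map_one, map_pow, aeval_X]
      exact hd.symm
    · simp [ψ]
  constructor
  · rintro ⟨u, hu, y, hy⟩
    refine ⟨u, hu, ?_⟩
    obtain ⟨D', N, hD, hN⟩ := common_den y
    obtain ⟨a, b, c, d, habcd⟩ := Nat.sum_four_squares (D' - 1)
    have hD1 : (D' : ℚ) = 1 + (a : ℚ) ^ 2 + (b : ℚ) ^ 2 + (c : ℚ) ^ 2 + (d : ℚ) ^ 2 := by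
      have : D' = 1 + a ^ 2 + b ^ 2 + c ^ 2 + d ^ 2 := by omega
      exact_mod_cast this
    let z : Fin (m + 4) → ℚ := Fin.addCases (fun j => (N j : ℚ)) ![(a : ℚ), b, c, d]
    refine ⟨z, fun j => ?_, ?_⟩
    · refine Fin.addCases (fun j => ?_) (fun j => ?_) j
      · simp only [z, Fin.addCases_left]
        exact intCast_mem R (N j)
      · simp only [z, Fin.addCases_right]
        fin_cases j
        · exact natCast_mem R a
        · exact natCast_mem R b
        · exact natCast_mem R c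
        · exact natCast_mem R d
    · rw [ev u z D' (by simp only [z, Fin.addCases_right]; exact hD1)]
      have e2 : (fun j => z (Fin.castAdd 4 j) / (D' : ℚ)) = y := by
        funext j
        simp only [z, Fin.addCases_left]
        exact (hN j).symm
      rw [e2, hy, mul_zero]
  · rintro ⟨u, hu, y, -, hy⟩
    refine ⟨u, hu, ?_⟩
    rw [ev u y _ rfl] at hy
    refine ⟨_, (mul_eq_zero.1 hy).resolve_left (pow_ne_zero _ ?_)⟩
    have h2 := sq_nonneg (y (Fin.natAdd m 0))
    have h3 := sq_nonneg (y (Fin.natAdd m 1))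
    have h4 := sq_nonneg (y (Fin.natAdd m 2))
    have h5 := sq_nonneg (y (Fin.natAdd m 3))
    have : 0 < 1 + y (Fin.natAdd m 0) ^ 2 + y (Fin.natAdd m 1) ^ 2 + y (Fin.natAdd m 2) ^ 2 +
        y (Fin.natAdd m 3) ^ 2 := by linarith
    exact this.ne'

end Vale.Agent.P027.T2
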