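import Vale.Agent.P027.R2.H124.Cap3

set_option linter.all false

/-! Completeness of the common prime predicate for primes of either sign. -/

namespace Vale.Agent.P027.T2

open Vale.Agent.P027

/-- square roots modulo coprime numbers -/
theorem sq_crt {m n : ℤ} (h : IsCoprime m n) {a s t : ℤ} (hs : m ∣ s ^ 2 - a)
    (ht : n ∣ t ^ 2 - a) : ∃ r : ℤ, m * n ∣ r ^ 2 - a := by
  obtain ⟨u, v, huv⟩ := h
  refine ⟨v * n * s + u * m * t, IsCoprime.mul_dvd ⟨u, v, huv⟩ ?_ ?_⟩
  · have e : (v * n * s + u * m * t) ^ 2 - a = (s ^ 2 - a) +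
        m * (u * (t - s) * (2 * s + u * m * (t - s))) := by
      have : v * n = 1 - u * m := by linarith only [huv]
      rw [this]; ring
    rw [e]
    exact dvd_add hs (dvd_mul_right _ _)
  · have e : (v * n * s + u * m * t) ^ 2 - a = (t ^ 2 - a) +
        n * (v * (s - t) * (2 * t + v * n * (s - t))) := by
      have : u * m = 1 - v * n := by linarith only [huv]
      rw [this]; ring
    rw [e]
    exact dvd_add ht (dvd_mul_right _ _)

/-- reciprocity for integers which are one modulo four -/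
theorem recip_int {z : ℤ} (hz : z % 4 = 1) {p : ℕ} (hp : p % 4 = 3) :
    jacobiSym z p = jacobiSym p z.natAbs := by
  have hpodd : Odd p := by rw [Nat.odd_iff]; omega
  rcases le_or_gt 0 z with h0 | h0
  · obtain ⟨N, rfl⟩ := Int.eq_ofNat_of_zero_le h0
    rw [Int.natAbs_natCast]
    exact jacobiSym.quadratic_reciprocity_one_mod_four (a := N) (b := p) (by omega) hpodd
  · obtain ⟨N, hN⟩ : ∃ N : ℕ, z = -N := ⟨z.natAbs, by omega⟩
    subst hN
    rw [Int.natAbs_neg, Int.natAbs_natCast, jacobiSym.neg _ hpodd, chi4_three hp,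
      jacobiSym.quadratic_reciprocity_three_mod_four (a := N) (b := p) (by omega) (by omega)]
    ring

theorem jacobi_three_left {K : ℤ} (h4 : K % 4 = 1) (h3 : K % 3 = 1) :
    jacobiSym 3 K.natAbs = 1 := by
  have h := recip_int h4 (p := 3) (by norm_num)
  have e : K % ((3 : ℕ) : ℤ) = 1 % ((3 : ℕ) : ℤ) := by
    push_cast; omega
  rw [jacobiSym.mod_left' e, jacobiSym.one_left] at h
  exact_mod_cast h.symm

/-- choice of the auxiliary prime -/
theorem exists_prime_crt6 {B N : ℕ} (hB : Nat.Coprime 12 B) (hB0 : B ≠ 0) (hN0 : N ≠ 0)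
    (hBN : Nat.Coprime (12 * B) N) (M : ℕ) :
    ∃ p : ℕ, M < p ∧ p.Prime ∧ p % 12 = 11 ∧ (B : ℤ) ∣ 1 - p ∧ (N : ℤ) ∣ 3 - p := by
  obtain ⟨c, hc1, hc2⟩ := Nat.chineseRemainder hB 11 1
  obtain ⟨d, hd1, hd2⟩ := Nat.chineseRemainder hBN c 3
  have hd12 : d ≡ 11 [MOD 12] := (hd1.of_mul_right B).trans hc1
  have hdB : d ≡ 1 [MOD B] := (hd1.of_mul_left 12).trans hc2
  have h3N : Nat.Coprime 3 N := by
    refine Nat.Coprime.coprime_dvd_left ?_ hBN
    exact ⟨4 * B, by ring⟩
  have hco : Nat.Coprime d (12 * B * N) := by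
    refine Nat.Coprime.mul_right (Nat.Coprime.mul_right ?_ ?_) ?_
    · rw [Nat.Coprime, hd12.gcd_eq]; norm_num
    · rw [Nat.Coprime, hdB.gcd_eq]; exact Nat.gcd_one_left _
    · rw [Nat.Coprime, hd2.gcd_eq]; exact h3N
  obtain ⟨p, hp1, hp2, hp3⟩ := Nat.forall_exists_prime_gt_and_modEq M
    (by positivity : 12 * B * N ≠ 0) hco
  refine ⟨p, hp1, hp2, ?_, ?_, ?_⟩
  · have : p ≡ 11 [MOD 12] := ((hp3.of_mul_right N).of_mul_right B).trans hd12
    exact this
  · have : p ≡ 1 [MOD B] := ((hp3.of_mul_right N).of_mul_left 12).trans hdB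
    exact_mod_cast Nat.modEq_iff_dvd.1 this
  · have : p ≡ 3 [MOD N] := (hp3.of_mul_left (12 * B)).trans hd2
    exact_mod_cast Nat.modEq_iff_dvd.1 this

theorem capture6_complete {b : ℤ} (hb : b.natAbs.Prime) (h12 : b % 12 = 5) (L : List ℤ) :
    ∃ a : ℚ, Cap3 a b ∧ ∀ R ∈ L, Con3 a b R := by
  obtain ⟨K, hK⟩ : ∃ K : ℤ → ℤ, ∀ R, K R = 1 + 12 * b * R ^ 2 := ⟨_, fun _ => rfl⟩
  have hK12 : ∀ R, K R % 12 = 1 := by
    intro R
    rw [hK, mul_assoc]
    omega
  obtain ⟨P, hP⟩ : ∃ P : ℕ, P = (L.map (fun R => (K R).natAbs)).prod := ⟨_, rfl⟩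
  have hcoK : ∀ R, Nat.Coprime (12 * b.natAbs) (K R).natAbs := by
    intro R
    have h1 : IsCoprime (12 * b) (K R) := ⟨-R ^ 2, 1, by rw [hK]; ring⟩
    rw [Int.isCoprime_iff_gcd_eq_one, Int.gcd, Int.natAbs_mul] at h1
    exact h1
  have hcoP : Nat.Coprime (12 * b.natAbs) P := by
    rw [hP]
    refine Nat.coprime_list_prod_right_iff.2 ?_
    intro n hn
    obtain ⟨R, -, rfl⟩ := List.mem_map.1 hn
    exact hcoK R
  have hP0 : P ≠ 0 := by
    rintro rfl
    rw [Nat.coprime_zero_right] at hcoP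
    omega
  have hdvdP : ∀ R ∈ L, (K R).natAbs ∣ P := by
    intro r hr
    rw [hP]
    exact List.dvd_prod (List.mem_map.2 ⟨r, hr, rfl⟩)
  have hB12 : Nat.Coprime 12 b.natAbs := by
    have h1 : IsCoprime (12 : ℤ) b := by
      refine IsCoprime.of_mul_left_left (y := 1) ?_
      have : b = 5 + 12 * (b / 12) := by omega
      rw [this, mul_one]
      exact ⟨-2 - 5 * (b / 12), 5, by ring⟩
    rw [Int.isCoprime_iff_gcd_eq_one, Int.gcd] at h1
    exact h1
  obtain ⟨p, hpM, hp, hp12, hpB, hpP⟩ := exists_prime_crt6 hB12 hb.ne_zero hP0 hcoP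
    (b.natAbs + P + 3)
  have hp0 : (0 : ℤ) < p := by exact_mod_cast hp.pos
  have hpb : b ∣ 1 - p := Int.natAbs_dvd.1 hpB
  have hpgt : ∀ x : ℤ, x ≠ 0 → x.natAbs < p → IsCoprime (p : ℤ) x := by
    intro x hx hxp
    have : Nat.Coprime p x.natAbs := by
      rw [Nat.Prime.coprime_iff_not_dvd hp]
      intro hd
      have := Nat.le_of_dvd (Int.natAbs_pos.2 hx) hd
      omega
    rw [Int.isCoprime_iff_gcd_eq_one, Int.gcd, Int.natAbs_natCast]
    exact this
  have hpq : (p : ℚ) ≠ 0 := by exact_mod_cast hp.ne_zero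
  refine ⟨3 * p, ⟨mul_ne_zero (by norm_num) hpq, ?_, ?_⟩, ?_⟩
  · -- the first norm
    have hJ : jacobiSym 3 p = 1 := by
      have h := jacobiSym.quadratic_reciprocity_three_mod_four (a := 3) (b := p) (by norm_num)
        (by omega)
      have e : (p : ℤ) % ((3 : ℕ) : ℤ) = (2 : ℤ) % ((3 : ℕ) : ℤ) := by push_cast; omega
      rw [jacobiSym.mod_left' e] at h
      have h2 : jacobiSym 2 3 = -1 := by
        rw [jacobiSym.at_two (by decide)]
        decide
      rw [h2, neg_neg] at h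
      exact_mod_cast h
    obtain ⟨t, ht⟩ := sq_of_jacobi hp hJ
    obtain ⟨x, z, hxz⟩ := gconic2 (α := 3) (β := -(p : ℤ)) (s := t) (t := 1) (by norm_num)
      (by omega) ((hpgt 3 (by norm_num) (by show 3 < p; omega)).symm.neg_right) ((neg_dvd).2 ht)
      (by omega) (fun k hk => by
        have := prime_not_sq Nat.prime_three k
        exact this (by exact_mod_cast hk))
    refine ⟨3 * z, x, ?_⟩
    push_cast at hxz
    linear_combination (-3) * hxz
  · -- the second norm
    have hJ : jacobiSym b p = 1 := by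
      rw [recip_int (by omega) (by omega)]
      have e : (p : ℤ) % b.natAbs = 1 % b.natAbs := Int.modEq_iff_dvd.2 hpB
      rw [jacobiSym.mod_left' e]
      exact jacobiSym.one_left _
    obtain ⟨t, ht⟩ := sq_of_jacobi hp hJ
    obtain ⟨x, z, hxz⟩ := gconic1 (α := p) (β := b) (s := 1) (t := t) hp0 (by omega)
      (hpgt b (by omega) (by omega)) (by simpa using hpb) ht (fun k hk => by
        rcases le_or_gt 0 b with h0 | h0
        · have h1 := prime_not_sq hb k
          rw [Int.natAbs_of_nonneg h0] at h1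
          exact h1 hk
        · have := sq_nonneg k
          omega)
    refine ⟨3 * x, 3 * z, ?_⟩
    push_cast at hxz
    linear_combination 9 * hxz
  · intro R hR
    have hKd : (K R) ∣ 3 - p := by
      have h1 : ((K R).natAbs : ℤ) ∣ (P : ℤ) := by exact_mod_cast hdvdP R hR
      exact Int.natAbs_dvd.1 (h1.trans hpP)
    have hK0 : K R ≠ 0 := by
      have := hK12 R
      omega
    have hKle : (K R).natAbs ≤ P := Nat.le_of_dvd (Nat.pos_of_ne_zero hP0) (hdvdP R hR)
    have hJ : jacobiSym (K R) p = 1 := by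
      have := hK12 R
      rw [recip_int (by omega) (by omega)]
      have e : (p : ℤ) % (K R).natAbs = 3 % (K R).natAbs :=
        Int.modEq_iff_dvd.2 (Int.natAbs_dvd.2 hKd)
      rw [jacobiSym.mod_left' e]
      exact jacobi_three_left (by omega) (by omega)
    obtain ⟨t, ht⟩ := sq_of_jacobi hp hJ
    have h3p : IsCoprime (3 : ℤ) (p : ℤ) := (hpgt 3 (by norm_num) (by show 3 < p; omega)).symm
    obtain ⟨r, hr⟩ := sq_crt h3p (a := K R) (s := 1) (t := t)
      (by have := hK12 R; omega) ht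
    have hcoK3 : IsCoprime (3 : ℤ) (K R) := by
      have h := hK12 R
      have e : K R = 1 + 3 * (4 * (K R / 12)) := by omega
      exact ⟨-(4 * (K R / 12)), 1, by linarith only [e]⟩
    obtain ⟨x, z, hxz⟩ := gconic2 (α := 3 * (p : ℤ)) (β := K R) (s := 3) (t := r)
      (by omega) hK0 (hcoK3.mul_left (hpgt _ hK0 (by omega)))
      (by
        obtain ⟨k, hk⟩ := hKd
        exact ⟨3 * k, by linear_combination 3 * hk⟩) hr
      (fun k hk => by
        have h1 : (3 : ℤ) ∣ k := by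
          have : (3 : ℤ) ∣ k ^ 2 := ⟨p, hk.symm⟩
          exact Int.prime_three.dvd_of_dvd_pow this
        obtain ⟨j, rfl⟩ := h1
        have h2 : (p : ℤ) = 3 * j ^ 2 := by linarith only [hk]
        omega)
    refine ⟨x, z, ?_⟩
    have h1 : (1 : ℚ) + 12 * b * (R : ℚ) ^ 2 = ((K R : ℤ) : ℚ) := by rw [hK]; push_cast; ring
    rw [h1, hxz]
    push_cast
    ring

theorem CP.complete' {b : ℤ} (hb : b.natAbs.Prime) (h12 : b % 12 = 5) (A : List ℚ)
    (hA : ∀ x ∈ A, ∃ n : ℤ, x = b * n) : CP A := by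
  have hb0 : (b : ℚ) ≠ 0 := by
    have : b ≠ 0 := by omega
    exact_mod_cast this
  have hA' : ∀ x : ℚ, ∃ n : ℤ, x ∈ A → x = b * n := by
    intro x
    by_cases hx : x ∈ A
    · obtain ⟨n, hn⟩ := hA x hx
      exact ⟨n, fun _ => hn⟩
    · exact ⟨0, fun h => absurd h hx⟩
  choose n hn using hA'
  obtain ⟨a, hcap, hcon⟩ := capture6_complete hb h12 (1 :: A.map n)
  refine ⟨a, b, ?_, hcap, ?_, fun x hx => ?_⟩
  · obtain ⟨k, hk⟩ : ∃ k : ℤ, b = 5 + 12 * k := ⟨(b - 5) / 12, by omega⟩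
    have hk' : ((b : ℚ) - 5) / 12 = k := by
      have : (b : ℚ) = 5 + 12 * k := by exact_mod_cast hk
      rw [this]; ring
    constructor
    · rw [hk', padicValRat.of_int]
      exact_mod_cast Nat.zero_le _
    · rw [hk', padicValRat.of_int]
      exact_mod_cast Nat.zero_le _
  · have := hcon 1 (by simp)
    simpa using this
  · have h1 := hcon (n x) (by simp; right; exact ⟨x, hx, rfl⟩)
    have e : x / b = (n x : ℚ) := by
      rw [div_eq_iff hb0, mul_comm]
      exact hn x hx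
    rw [e]
    exact h1

end Vale.Agent.P027.T2
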